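import Vale.Agent.P027.A.Defs

/-! P027 A/Canc: detecting common factors by heights.
o = b / q in lowest terms (b = o.num, q = o.den), B = |b|.  `w_eq`: w = B^2 / (q^2 + c B^2) and the two naturals are coprime
(`gad_mk`; Nat.Coprime.add_mul_right_right, Rat.reduced, Rat.num_div_den, Int.natAbs_sq).  `w_ht`: `Ht_of_le_one` (or max directly).
`w_bounds`: Ht (o)^2 = max B q ^ 2 <= q^2 + c B^2 <= (c+1) Ht o ^ 2; w + 1 has the same denominator (Rat.add_intCast_den) and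
numerator B^2 + den <= 2 den.
`w_seven`: (w+1) 7^n = ((B^2 + M) 7^n) / M with M = q^2 + c B^2 coprime to 7 (7 | q^2 + B^2 or 7 | q^2 + 2B^2 forces 7 | q and 7 | B:
ZMod 7 decide), so `gad_mk` gives the numerator.
`canc_up`: B = d t, x = A / d: w x^2 = +(t |A|)^2 / M, Ht <= max ((t|A|)^2) M <= 4 M since t |A| <= 2 t d = 2 B (height of a fraction
of naturals is at most the max of the two: Rat.num_dvd, Rat.den_dvd or Rat.divInt lemmas).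
`canc_den`: w x^2 = B^2 A^2 / (M d^2) so M d^2 = den (w x^2) * gcd (B^2 A^2) (M d^2) and
gcd (B^2 A^2) (M d^2) divides gcd (B^2) (d^2) * gcd (A^2) M (B, M coprime; A, d coprime; Nat.gcd_mul_right_dvd_mul_gcd,
Nat.Coprime.gcd_mul_left_cancel), gcd (B^2) (d^2) = gcd B d ^ 2 (Nat.pow_gcd_pow / gcd_pow..).
`canc`: M1 = q^2 + B^2 and M2 = q^2 + 2B^2 are coprime, so gcd (A^2) M1 * gcd (A^2) M2 divides A^2 (A /= 0), which is <= 4 d^2;
hence one of the two gcds is <= 2 d; cancel d > 0. -/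

namespace Vale.Agent.P027

theorem canc_frac (A : ℕ) {B : ℕ} (hB : 0 < B) :
    ((A : ℚ) / B).num.natAbs * Nat.gcd A B = A ∧ ((A : ℚ) / B).den * Nat.gcd A B = B := by
  obtain ⟨a, b, h, ha, hb⟩ := Nat.exists_coprime A B
  have hg : 0 < Nat.gcd A B := Nat.gcd_pos_of_pos_right A hB
  generalize Nat.gcd A B = g at *
  subst ha hb
  have h1 : ((a * g : ℕ) : ℚ) / (b * g : ℕ) = (a : ℚ) / b := by
    rw [Nat.cast_mul, Nat.cast_mul, mul_div_mul_right _ _ (by exact_mod_cast hg.ne')]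
  have h2 := gad_mk (Nat.pos_of_mul_pos_right hB) h
  rw [h1, h2.1, h2.2, Int.natAbs_natCast]
  exact ⟨rfl, rfl⟩

theorem canc_le (A : ℕ) {B : ℕ} (hB : 0 < B) : Ht ((A : ℚ) / B) ≤ max A B := by
  have hg : 0 < Nat.gcd A B := Nat.gcd_pos_of_pos_right A hB
  exact max_le_max ((Nat.le_mul_of_pos_right _ hg).trans (canc_frac A hB).1.le)
    ((Nat.le_mul_of_pos_right _ hg).trans (canc_frac A hB).2.le)

theorem canc_pos (c : ℕ) (o : ℚ) : 0 < o.den ^ 2 + c * o.num.natAbs ^ 2 :=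
  Nat.add_pos_left (pow_pos o.den_pos 2) _

theorem canc_cop (c : ℕ) (o : ℚ) :
    (o.num.natAbs ^ 2).Coprime (o.den ^ 2 + c * o.num.natAbs ^ 2) :=
  (Nat.coprime_add_mul_right_right _ _ _).2 (Nat.Coprime.pow 2 2 o.reduced)

theorem canc_rep {c : ℕ} {o w : ℚ} (h : w * (1 + c * o ^ 2) = o ^ 2) :
    w = ((o.num.natAbs ^ 2 : ℕ) : ℚ) / (o.den ^ 2 + c * o.num.natAbs ^ 2 : ℕ) := by
  have h1 : (0 : ℚ) < (o.den ^ 2 + c * o.num.natAbs ^ 2 : ℕ) := by exact_mod_cast canc_pos c o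
  rw [eq_div_iff h1.ne', Nat.cast_add, Nat.cast_mul, Nat.cast_pow, Nat.cast_pow, ← gad_sq o]
  linear_combination (o.den : ℚ) ^ 2 * h

theorem canc_sq (x : ℚ) : x ^ 2 = ((x.num.natAbs ^ 2 : ℕ) : ℚ) / (x.den ^ 2 : ℕ) := by
  have h1 : (0 : ℚ) < (x.den ^ 2 : ℕ) := by exact_mod_cast pow_pos x.den_pos 2
  rw [eq_div_iff h1.ne', Nat.cast_pow, Nat.cast_pow, gad_sq]

theorem canc_succ {c : ℕ} {o w : ℚ} (h : w * (1 + c * o ^ 2) = o ^ 2) :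
    w + 1 = ((o.num.natAbs ^ 2 + (o.den ^ 2 + c * o.num.natAbs ^ 2) : ℕ) : ℚ) /
      (o.den ^ 2 + c * o.num.natAbs ^ 2 : ℕ) := by
  have h1 : (0 : ℚ) < (o.den ^ 2 + c * o.num.natAbs ^ 2 : ℕ) := by exact_mod_cast canc_pos c o
  rw [Nat.cast_add (o.num.natAbs ^ 2), add_div, div_self h1.ne', ← canc_rep h]

theorem canc_seven {c B q : ℕ} (hc : c = 1 ∨ c = 2) (h : B.Coprime q) :
    Nat.Coprime 7 (q ^ 2 + c * B ^ 2) := by
  refine (Nat.Prime.coprime_iff_not_dvd (by norm_num)).2 fun h1 => ?_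
  have h2 : ∀ a b : ZMod 7, a ^ 2 + (1 : ℕ) * b ^ 2 = 0 ∨ a ^ 2 + (2 : ℕ) * b ^ 2 = 0 →
      a = 0 ∧ b = 0 := by decide
  rw [← ZMod.natCast_eq_zero_iff, Nat.cast_add, Nat.cast_mul, Nat.cast_pow, Nat.cast_pow] at h1
  have h3 := h2 q B (by rcases hc with rfl | rfl; exacts [Or.inl h1, Or.inr h1])
  rw [ZMod.natCast_eq_zero_iff, ZMod.natCast_eq_zero_iff] at h3
  exact absurd (Nat.eq_one_of_dvd_coprimes h h3.2 h3.1) (by norm_num)

theorem w_eq {c : ℕ} {o w : ℚ} (h : w * (1 + c * o ^ 2) = o ^ 2) :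
    w.num = (o.num.natAbs ^ 2 : ℕ) ∧ w.den = o.den ^ 2 + c * o.num.natAbs ^ 2 := by
  have h1 := gad_mk (canc_pos c o) (canc_cop c o)
  rwa [← canc_rep h] at h1

theorem w_ht {c : ℕ} (hc : 0 < c) {o w : ℚ} (h : w * (1 + c * o ^ 2) = o ^ 2) :
    Ht w = o.den ^ 2 + c * o.num.natAbs ^ 2 := by
  rw [canc_rep h, gad_ht (canc_pos c o) (canc_cop c o)]
  exact max_eq_right ((Nat.le_mul_of_pos_left _ hc).trans (Nat.le_add_left _ _))

theorem w_bounds {c : ℕ} (hc : 0 < c) {o w : ℚ} (h : w * (1 + c * o ^ 2) = o ^ 2) :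
    Ht (o ^ 2) ≤ Ht w ∧ Ht w ≤ (c + 1) * Ht (o ^ 2) ∧ Ht (w + 1) ≤ 2 * Ht w := by
  have h1 : o.num.natAbs ^ 2 ≤ c * o.num.natAbs ^ 2 := Nat.le_mul_of_pos_left _ hc
  rw [w_ht hc h, Ht_pow]
  refine ⟨?_, ?_, ?_⟩
  · rcases le_total o.num.natAbs o.den with h2 | h2
    · rw [Ht, max_eq_right h2]
      omega
    · rw [Ht, max_eq_left h2]
      omega
  · have h2 : o.num.natAbs ^ 2 ≤ Ht o ^ 2 := Nat.pow_le_pow_left (le_max_left _ _) 2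
    have h3 : o.den ^ 2 ≤ Ht o ^ 2 := Nat.pow_le_pow_left (le_max_right _ _) 2
    nlinarith [Nat.mul_le_mul_left c h2]
  · rw [canc_succ h]
    refine (canc_le _ (canc_pos c o)).trans (max_le ?_ ?_) <;> omega

theorem w_seven {c : ℕ} (hc : c = 1 ∨ c = 2) {o w : ℚ} (h : w * (1 + c * o ^ 2) = o ^ 2) (n : ℕ) :
    Ht w * 7 ^ n ≤ Ht ((w + 1) * 7 ^ n) := by
  have h1 : ((o.num.natAbs ^ 2 + (o.den ^ 2 + c * o.num.natAbs ^ 2)) * 7 ^ n).Coprime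
      (o.den ^ 2 + c * o.num.natAbs ^ 2) :=
    Nat.Coprime.mul_left (Nat.coprime_add_self_left.2 (canc_cop c o))
      (Nat.Coprime.pow_left n (canc_seven hc o.reduced))
  have h2 := gad_ht (canc_pos c o) h1
  rw [Nat.cast_mul, mul_div_right_comm, ← canc_succ h, Nat.cast_pow, Nat.cast_ofNat] at h2
  rw [h2, w_ht (by omega) h]
  exact (Nat.mul_le_mul_right _ (Nat.le_add_left _ _)).trans (le_max_left _ _)

theorem canc_up {c : ℕ} (hc : 0 < c) {o w x : ℚ} (h : w * (1 + c * o ^ 2) = o ^ 2)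
    (hx : Ht x ≤ 2 * x.den) (hd : x.den ∣ o.num.natAbs) : Ht (w * x ^ 2) ≤ 4 * Ht w := by
  obtain ⟨t, ht⟩ := hd
  have h1 : w * x ^ 2 = (((t * x.num.natAbs) ^ 2 : ℕ) : ℚ) /
      (o.den ^ 2 + c * o.num.natAbs ^ 2 : ℕ) := by
    have h2 : ((o.num.natAbs ^ 2 : ℕ) : ℚ) = (x.den : ℚ) ^ 2 * t ^ 2 := by
      rw [ht, Nat.cast_pow, Nat.cast_mul, mul_pow]
    rw [canc_rep h, div_mul_eq_mul_div, h2, Nat.cast_pow (t * _), Nat.cast_mul t, mul_pow, ← gad_sq x]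
    ring
  have h2 : t * x.num.natAbs ≤ 2 * o.num.natAbs := by
    rw [ht]
    nlinarith [Nat.mul_le_mul_left t ((le_max_left _ _).trans hx)]
  have h3 := Nat.pow_le_pow_left h2 2
  have h4 : o.num.natAbs ^ 2 ≤ c * o.num.natAbs ^ 2 := Nat.le_mul_of_pos_left _ hc
  rw [mul_pow 2] at h3
  rw [h1, w_ht hc h]
  refine (canc_le _ (canc_pos c o)).trans (max_le ?_ ?_) <;> omega

theorem canc_den {c : ℕ} (hc : 0 < c) {o w : ℚ} (x : ℚ) (h : w * (1 + c * o ^ 2) = o ^ 2) :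
    Ht w * x.den ^ 2 ≤ Ht (w * x ^ 2) * (Nat.gcd o.num.natAbs x.den ^ 2 *
      Nat.gcd (x.num.natAbs ^ 2) (o.den ^ 2 + c * o.num.natAbs ^ 2)) := by
  have h0 : 0 < (o.den ^ 2 + c * o.num.natAbs ^ 2) * x.den ^ 2 :=
    Nat.mul_pos (canc_pos c o) (pow_pos x.den_pos 2)
  have h1 := (canc_frac (o.num.natAbs ^ 2 * x.num.natAbs ^ 2) h0).2
  rw [Nat.cast_mul, Nat.cast_mul _ (x.den ^ 2), ← div_mul_div_comm, ← canc_rep h, ← canc_sq] at h1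
  have h2 := Nat.gcd_mul_right_dvd_mul_gcd (o.num.natAbs ^ 2 * x.num.natAbs ^ 2)
    (o.den ^ 2 + c * o.num.natAbs ^ 2) (x.den ^ 2)
  rw [(canc_cop c o).gcd_mul_left_cancel, (Nat.Coprime.pow 2 2 x.reduced).gcd_mul_right_cancel,
    Nat.pow_gcd_pow, mul_comm (Nat.gcd (x.num.natAbs ^ 2) _)] at h2
  rw [w_ht hc h, ← h1]
  exact Nat.mul_le_mul (le_max_right _ _) (Nat.le_of_dvd (Nat.mul_pos
    (pow_pos (Nat.gcd_pos_of_pos_right _ x.den_pos) 2) (Nat.gcd_pos_of_pos_right _ (canc_pos c o))) h2)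

theorem canc {o w₁ w₂ x : ℚ} (h₁ : w₁ * (1 + o ^ 2) = o ^ 2) (h₂ : w₂ * (1 + 2 * o ^ 2) = o ^ 2)
    (hx0 : x ≠ 0) (hx : Ht x ≤ 2 * x.den) :
    Ht w₁ * x.den ≤ 2 * Nat.gcd o.num.natAbs x.den ^ 2 * Ht (w₁ * x ^ 2) ∨
      Ht w₂ * x.den ≤ 2 * Nat.gcd o.num.natAbs x.den ^ 2 * Ht (w₂ * x ^ 2) := by
  have k₁ := canc_den (c := 1) one_pos x (w := w₁) (o := o) (by rw [Nat.cast_one, one_mul, h₁])
  have k₂ := canc_den (c := 2) two_pos x (w := w₂) (o := o) (by rw [Nat.cast_ofNat, h₂])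
  have h1 : (o.den ^ 2 + 1 * o.num.natAbs ^ 2).Coprime (o.den ^ 2 + 2 * o.num.natAbs ^ 2) := by
    rw [show o.den ^ 2 + 2 * o.num.natAbs ^ 2 =
      o.num.natAbs ^ 2 + (o.den ^ 2 + 1 * o.num.natAbs ^ 2) by ring]
    exact Nat.coprime_add_self_right.2 (canc_cop 1 o).symm
  have h2 := Nat.le_of_dvd (pow_pos (Int.natAbs_pos.2 (Rat.num_ne_zero.2 hx0)) 2)
    (((h1.coprime_dvd_left (Nat.gcd_dvd_right (x.num.natAbs ^ 2) _)).coprime_dvd_right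
      (Nat.gcd_dvd_right (x.num.natAbs ^ 2) _)).mul_dvd_of_dvd_of_dvd (Nat.gcd_dvd_left _ _)
      (Nat.gcd_dvd_left _ _))
  have h3 := h2.trans (Nat.pow_le_pow_left ((le_max_left _ _).trans hx) 2)
  have h4 : ∀ a b g : ℕ, g ≤ 2 * x.den →
      a * x.den ^ 2 ≤ b * (Nat.gcd o.num.natAbs x.den ^ 2 * g) →
      a * x.den ≤ 2 * Nat.gcd o.num.natAbs x.den ^ 2 * b := fun a b g hg e =>
    Nat.le_of_mul_le_mul_right (by
      nlinarith [Nat.mul_le_mul_left (b * Nat.gcd o.num.natAbs x.den ^ 2) hg]) x.den_pos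
  by_contra hn
  rw [not_or] at hn
  have h5 := not_le.1 fun e => hn.1 (h4 _ _ _ e k₁)
  have h6 := not_le.1 fun e => hn.2 (h4 _ _ _ e k₂)
  exact absurd (Nat.mul_lt_mul'' h5 h6) (not_lt.2 (h3.trans (sq _).le))

end Vale.Agent.P027
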