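import Vale.Agent.P027.A.Defs

/-! P027 A/HtT: elementary height bounds.  Use `Ht_real` and Mathlib: Height.mulHeight1_inv, mulHeight1_neg,
mulHeight1_add_le / mulHeight1_sub_le (factor 2 ^ totalWeight, NumberField.totalWeight_eq_finrank gives totalWeight Q = 1), or argue
with numerators and denominators.
`Ht_t`: (y/x)^2 = x - 2/x = (A^2 - 2 d^2)/(A d) for x = A/d, so Ht (y/x)^2 <= max |A^2 - 2d^2| |A d| <= 4 Ht x ^ 2
(height of a fraction of integers is at most the max of their absolute values: Rat.num_dvd, Rat.den_dvd), `Ht_pow`, `Ht_inv`.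
`Ht_s`: y' /= 0 by the curve equation and `sq_ne_two`; s = (x'/y') * (x/y)^-1 (if y = 0 then x = 0, excluded), `Ht_mul_le`.
`inv_num`: i = x'^-1, Rat.num_inv / Rat.den_inv_of_ne_zero. -/

namespace Vale.Agent.P027

theorem HtT_frac {a b : ℤ} {M : ℕ} (hb : b ≠ 0) (h1 : a.natAbs ≤ M) (h2 : b.natAbs ≤ M) :
    Ht ((a : ℚ) / b) ≤ M := by
  have h3 : ((a : ℚ) / b).den ≤ M := by
    rw [← Rat.divInt_eq_div]
    exact (Nat.le_of_dvd (Int.natAbs_pos.2 hb)
      (Int.natCast_dvd.1 (Rat.den_dvd a b))).trans h2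
  refine max_le ?_ h3
  rcases eq_or_ne a 0 with rfl | ha
  · simp
  · rw [← Rat.divInt_eq_div]
    exact (Nat.le_of_dvd (Int.natAbs_pos.2 ha)
      (Int.natAbs_dvd_natAbs.2 (Rat.num_dvd a hb))).trans h1

theorem Ht_inv (q : ℚ) : Ht q⁻¹ = Ht q := by
  have : (Ht q⁻¹ : ℝ) = Ht q := by rw [Ht_real, Ht_real, Height.mulHeight₁_inv]
  exact_mod_cast this

theorem Ht_sub_le (p q : ℚ) : Ht (p - q) ≤ 2 * (Ht p * Ht q) := by
  have h1 : p - q = ((p.num * q.den - q.num * p.den : ℤ) : ℚ) / ((p.den * q.den : ℤ) : ℚ) := by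
    have hp : (p.den : ℚ) ≠ 0 := Nat.cast_ne_zero.2 p.den_nz
    have hq : (q.den : ℚ) ≠ 0 := Nat.cast_ne_zero.2 q.den_nz
    push_cast
    rw [eq_div_iff (mul_ne_zero hp hq), ← Rat.mul_den_eq_num p, ← Rat.mul_den_eq_num q]
    ring
  have a1 : p.num.natAbs ≤ Ht p := le_max_left _ _
  have a2 : p.den ≤ Ht p := le_max_right _ _
  have a3 : q.num.natAbs ≤ Ht q := le_max_left _ _
  have a4 : q.den ≤ Ht q := le_max_right _ _
  rw [h1]
  refine HtT_frac (by exact_mod_cast mul_ne_zero p.den_nz q.den_nz) ?_ ?_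
  · refine (Int.natAbs_sub_le _ _).trans ?_
    rw [Int.natAbs_mul, Int.natAbs_mul, Int.natAbs_natCast, Int.natAbs_natCast]
    have := Nat.mul_le_mul a1 a4
    have := Nat.mul_le_mul a3 a2
    linarith
  · rw [Int.natAbs_mul, Int.natAbs_natCast, Int.natAbs_natCast]
    have := Nat.mul_le_mul a2 a4
    omega

theorem Ht_t {x y : ℚ} (e : y ^ 2 = x ^ 3 - 2 * x) (hx : x ≠ 0) : Ht (x / y) ≤ 2 * Ht x := by
  have hd : (x.den : ℚ) ≠ 0 := Nat.cast_ne_zero.2 x.den_nz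
  have hn : x.num ≠ 0 := Rat.num_ne_zero.2 hx
  have h1 : (x / y)⁻¹ ^ 2 =
      ((x.num ^ 2 - 2 * x.den ^ 2 : ℤ) : ℚ) / ((x.num * x.den : ℤ) : ℚ) := by
    push_cast
    rw [inv_div, div_pow, e, ← Rat.mul_den_eq_num x]
    field_simp
  have a1 : x.num.natAbs ≤ Ht x := le_max_left _ _
  have a2 : x.den ≤ Ht x := le_max_right _ _
  have h2 : Ht (x / y) ^ 2 ≤ (2 * Ht x) ^ 2 := by
    rw [← Ht_inv, ← Ht_pow, h1]
    refine HtT_frac (mul_ne_zero hn (by exact_mod_cast x.den_nz)) ?_ ?_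
    · refine (Int.natAbs_sub_le _ _).trans ?_
      rw [Int.natAbs_mul, Int.natAbs_pow, Int.natAbs_pow, Int.natAbs_natCast]
      have := Nat.pow_le_pow_left a1 2
      have := Nat.pow_le_pow_left a2 2
      have : (2 : ℤ).natAbs = 2 := rfl
      rw [this]
      nlinarith
    · rw [Int.natAbs_mul, Int.natAbs_natCast]
      have := Nat.mul_le_mul a1 a2
      nlinarith
  exact (Nat.pow_le_pow_iff_left two_ne_zero).1 h2

theorem Ht_s {x y x' y' s : ℚ} (e : y ^ 2 = x ^ 3 - 2 * x) (e' : y' ^ 2 = x' ^ 3 - 2 * x')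
    (hx : x ≠ 0) (hx' : x' ≠ 0) (hs : s * y' * x = x' * y) : Ht s ≤ 4 * (Ht x' * Ht x) := by
  have hy' : y' ≠ 0 := fun h => by
    have e2 : x' * (x' ^ 2 - 2) = 0 := by rw [h] at e'; linarith
    exact sq_ne_two x' (by linarith [(mul_eq_zero.1 e2).resolve_left hx'])
  have h1 : s = x' / y' * (x / y)⁻¹ := by
    rw [inv_div]
    field_simp
    linarith
  have h2 := Ht_mul_le (x' / y') (x / y)⁻¹
  rw [← h1, Ht_inv] at h2
  have := Nat.mul_le_mul (Ht_t e' hx') (Ht_t e hx)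
  linarith

theorem lg_sub_s {x y x' y' s : ℚ} (a : ℚ) (e : y ^ 2 = x ^ 3 - 2 * x)
    (e' : y' ^ 2 = x' ^ 3 - 2 * x') (hx : x ≠ 0) (hx' : x' ≠ 0) (hs : s * y' * x = x' * y) :
    lg (a - s) ≤ Real.log 8 + lg a + lg x' + lg x := by
  have h1 : Ht (a - s) ≤ 8 * Ht a * Ht x' * Ht x := by
    have := Nat.mul_le_mul_left (Ht a) (Ht_s e e' hx hx' hs)
    have := Ht_sub_le a s
    linarith
  have p : ∀ q, (0 : ℝ) < Ht q := fun q => by exact_mod_cast Ht_pos q
  simp only [lg]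
  rw [← Real.log_mul (by norm_num) (p _).ne', ← Real.log_mul (by have := p a; positivity) (p _).ne',
    ← Real.log_mul (by have := p a; have := p x'; positivity) (p _).ne']
  exact Real.log_le_log (p _) (by exact_mod_cast h1)

theorem inv_num {i x : ℚ} (h : i * x = 1) : i.num.natAbs = x.den ∧ Ht i = Ht x := by
  have hx : x ≠ 0 := right_ne_zero_of_mul_eq_one h
  obtain rfl : i = x⁻¹ := eq_inv_of_mul_eq_one_left h
  refine ⟨?_, Ht_inv x⟩
  rw [Rat.num_inv, Int.natAbs_mul, Int.natAbs_sign_of_ne_zero (Rat.num_ne_zero.2 hx), one_mul,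
    Int.natAbs_natCast]

end Vale.Agent.P027
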