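import Vale.Agent.P027.A.Pts
import Vale.Agent.P027.A.Canc
import Vale.Agent.P027.A.HtT

/-! P027 A/Comp2: completeness.
`comp2_an`: sqrt B <= sqrt K (t + 1), so it suffices that al t^2 >= (c + sqrt K + |C1|)(t + 1), true for t >= T0.
`seven_ex`: n = floor (L / (21 log 7)); lg (7^n) = n log 7 (`lg_pow`, `Ht_nat`).
`comp2`: `pts` with B = T0 for al = eta/21 and constants c, K large depending on eta, C, k, N, g P.  L = lg (x+1) = log x.den has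
eta t^2 - C - log 2 <= L <= eta t^2 + C (`egg_ht`).  e = 7^n from `seven_ex`; i = x'^-1, j = (x'+1)^-1, w_c = i^2/(1 + c i^2),
z_c likewise with k - s.  Each of the nine Lo conditions is `comp2_an` with B = lg of the second argument:
for (x+1): L - lg N, L - 20 lg k, L - 20 lg e >= L/21 are >= al t^2 - c (t+1);
for (w+1) e: lg w + lg e <= B (`w_seven`) and B <= log 2 + lg w + lg e <= K (t^2+1) (`w_bounds`, `inv_num`, `lg_sub_s`);
lg (w x^2) <= log 4 + lg w (`canc_up`), 2 lg (u^2 - x' + 1) <= 2 lg x' + 4C + 2 eta (2 |k| |ga| t + ga^2) and 2 lg x' <= lg w1. -/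

namespace Vale.Agent.P027

theorem comp2_an {al : ℝ} (hal : 0 < al) (K c C₁ : ℝ) {ε : ℝ} (h0 : 0 < ε) (h1 : ε ≤ 1) :
    ∃ T₀ : ℝ, ∀ t B p : ℝ, T₀ ≤ t → B ≤ K * (t ^ 2 + 1) → p + al * t ^ 2 - c * (t + 1) ≤ B →
      p + ε * √B + C₁ ≤ B := by
  obtain ⟨D, hD⟩ : ∃ D : ℝ, D = |c| + (|K| + 1) + |C₁| := ⟨_, rfl⟩
  have hD0 : 0 ≤ D := by rw [hD]; positivity
  refine ⟨1 + 2 * D / al, fun t B p ht hB hp => ?_⟩
  have h2 : 0 ≤ 2 * D / al := by positivity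
  have h3 : 1 ≤ t := by linarith
  have h4 : 2 * D ≤ t * al := (div_le_iff₀ hal).1 (by linarith)
  have hK := abs_nonneg K
  have h5 : √B ≤ (|K| + 1) * (t + 1) := by
    refine Real.sqrt_le_iff.2 ⟨by positivity, hB.trans ?_⟩
    rw [mul_pow]
    refine mul_le_mul ((le_abs_self K).trans (by nlinarith)) (by nlinarith) (by positivity)
      (by positivity)
  have h6 : ε * √B ≤ √B := mul_le_of_le_one_left (Real.sqrt_nonneg B) h1
  have h7 : c * (t + 1) ≤ |c| * (t + 1) := mul_le_mul_of_nonneg_right (le_abs_self c) (by linarith)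
  have h8 : C₁ ≤ |C₁| * (t + 1) :=
    (le_abs_self C₁).trans (le_mul_of_one_le_right (abs_nonneg _) (by linarith))
  have h9 : D * (t + 1) ≤ al * t ^ 2 := by nlinarith
  rw [hD] at h9
  linarith

theorem seven_ex {L : ℝ} (hL : 0 ≤ L) :
    ∃ n : ℕ, lg (7 ^ n) ≤ L / 21 ∧ L / 21 - 2 ≤ lg (7 ^ n) ∧
      ∀ w q : ℚ, Ht w * 7 ^ n ≤ Ht q → lg w + lg (7 ^ n) ≤ lg q := by
  have h1 : 0 < Real.log 7 := Real.log_pos (by norm_num)
  have h2 : Real.log 7 ≤ 2 := by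
    rw [Real.log_le_iff_le_exp (by norm_num), show (2 : ℝ) = 1 + 1 by norm_num, Real.exp_add]
    nlinarith [Real.exp_one_gt_d9]
  have h3 : Ht 7 = 7 := Ht_nat (n := 7) (by norm_num)
  have h4 : lg 7 = Real.log 7 := by rw [lg, h3, Nat.cast_ofNat]
  refine ⟨⌊L / 21 / Real.log 7⌋₊, ?_, ?_, fun w q h => ?_⟩
  · rw [lg_pow, h4, ← le_div_iff₀ h1]
    exact Nat.floor_le (by positivity)
  · have h5 := Nat.lt_floor_add_one (L / 21 / Real.log 7)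
    rw [div_lt_iff₀ h1] at h5
    rw [lg_pow, h4]
    linarith
  · have h5 : (0 : ℝ) < Ht w := by exact_mod_cast Ht_pos w
    rw [lg, lg, lg, Ht_pow, h3, ← Real.log_mul h5.ne' (by positivity)]
    exact Real.log_le_log (by positivity) (by exact_mod_cast h)

theorem Comp2_lg {p q : ℚ} {c : ℕ} (hc : 0 < c) (h : Ht p ≤ c * Ht q) : lg p ≤ c - 1 + lg q := by
  have h1 := Real.log_le_sub_one_of_pos (x := c) (by exact_mod_cast hc)
  linarith [lg_le_of hc h]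

theorem Comp2_w {c : ℕ} (hc : c = 1 ∨ c = 2) {o x : ℚ} {n : ℕ}
    (h7 : ∀ w q : ℚ, Ht w * 7 ^ n ≤ Ht q → lg w + lg (7 ^ n) ≤ lg q)
    (hx : Ht x ≤ 2 * x.den) (hd : x.den ∣ o.num.natAbs) :
    ∃ w : ℚ, w * (1 + c * o ^ 2) = o ^ 2 ∧ lg w + lg (7 ^ n) ≤ lg ((w + 1) * 7 ^ n) ∧
      lg ((w + 1) * 7 ^ n) ≤ 3 + 2 * lg o + lg (7 ^ n) ∧ 2 * lg o ≤ lg w ∧
      lg (w * x ^ 2) ≤ 3 + lg w := by
  have hc0 : 0 < c := by omega
  have h : o ^ 2 / (1 + c * o ^ 2) * (1 + c * o ^ 2) = o ^ 2 := div_mul_cancel₀ _ (by positivity)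
  refine ⟨_, h, h7 _ _ (w_seven hc h n), ?_⟩
  generalize o ^ 2 / (1 + c * o ^ 2) = w at h ⊢
  obtain ⟨b1, b2, b3⟩ := w_bounds hc0 h
  have c1 := Comp2_lg (c := 1) one_pos (b1.trans_eq (one_mul _).symm)
  have c2 := Comp2_lg (c := 3) (by norm_num) (b2.trans (Nat.mul_le_mul_right _ (by omega)))
  have c3 := Comp2_lg (c := 2) (by norm_num) b3
  have c4 := Comp2_lg (c := 4) (by norm_num) (canc_up hc0 h hx hd)
  have c5 := lg_mul_le (w + 1) (7 ^ n)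
  rw [lg_pow] at c1 c2
  push_cast at c1 c2 c3 c4
  exact ⟨by linarith, by linarith, by linarith⟩

theorem comp2 {g : G →+ ℤ} {η C : ℝ} (H : Str g η C) {ε : ℝ} (h0 : 0 < ε) (h1 : ε ≤ 1)
    (C₁ : ℝ) (N : ℕ) (k : ℤ) (hk : k ≠ 0) : Psi2 (Lo ε C₁) N k := by
  have hη := H.1
  have hC : 0 ≤ C := (abs_nonneg _).trans (H.2.2 0)
  obtain ⟨a, ha⟩ : ∃ a : ℝ, a = |(k : ℝ)| := ⟨_, rfl⟩
  obtain ⟨γ, hγ⟩ : ∃ γ : ℝ, γ = |(g P : ℝ)| := ⟨_, rfl⟩
  have ha0 : 0 ≤ a := ha ▸ abs_nonneg _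
  have hγ0 : 0 ≤ γ := hγ ▸ abs_nonneg _
  have hN := lg_nonneg N
  have hk0 := lg_nonneg k
  obtain ⟨T₀, hT⟩ := comp2_an (al := η / 21) (by positivity)
    (17 + 2 * lg k + 5 * C + (2 * (η * a ^ 2) + 3 * η))
    (lg N + 20 * lg k + 5 * C + 6 + 2 * (η * γ ^ 2) + 4 * (η * a * γ)) C₁ h0 h1
  obtain ⟨t, x, y, x', y', s, u, v, ht, ht0, e, e', hx, n1, n2, n3, hs, hu, hv, d1, d2, b1, b2,
    b3, b4⟩ := pts H k hk T₀
  rw [← ha] at b2 b3 b4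
  rw [← hγ] at b3 b4
  obtain ⟨e1, e2⟩ := egg_ht e hx
  have l1 := Comp2_lg (p := x) (q := x + 1) (c := 2) (by norm_num) (by rw [e1]; exact e2)
  have l2 := Comp2_lg (p := x + 1) (q := x) (c := 1) one_pos
    (by rw [e1, one_mul]; exact le_max_right _ _)
  have l3 := lg_nonneg (x + 1)
  obtain ⟨n, s1, s2, s3⟩ := seven_ex l3
  have hi : x'⁻¹ * x' = 1 := inv_mul_cancel₀ n2
  obtain ⟨i1, i2⟩ := inv_num hi
  have i3 : lg x'⁻¹ = lg x' := by rw [lg, lg, i2]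
  obtain ⟨w₁, p1, p2, p3, p4, p5⟩ := Comp2_w (o := x'⁻¹) (Or.inl rfl) s3 e2 (i1 ▸ d1)
  obtain ⟨w₂, q1, q2, q3, -, q5⟩ := Comp2_w (o := x'⁻¹) (Or.inr rfl) s3 e2 (i1 ▸ d1)
  obtain ⟨z₁, r1, r2, r3, -, r5⟩ := Comp2_w (Or.inl rfl) s3 e2 d2
  obtain ⟨z₂, t1, t2, t3, -, t5⟩ := Comp2_w (Or.inr rfl) s3 e2 d2
  rw [Nat.cast_one, one_mul] at p1 r1
  rw [Nat.cast_ofNat] at q1 t1
  rw [i3] at p3 p4 q3
  have l4 := lg_sub_s k e e' n1 n2 hs
  have l5 := Real.log_le_sub_one_of_pos (x := 8) (by norm_num)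
  obtain ⟨b11, b12⟩ := abs_le.1 b1
  obtain ⟨b21, b22⟩ := abs_le.1 b2
  push_cast at l1 l2
  have m1 : 0 ≤ η * t ^ 2 := by positivity
  have m2 : 0 ≤ η * a ^ 2 * t ^ 2 := by positivity
  have m3 : 0 ≤ η * γ ^ 2 := by positivity
  have m4 : 0 ≤ η * a * γ * t := by positivity
  have key : ∀ p q : ℚ,
      lg q ≤ 17 + 2 * lg k + 5 * C + (2 * (η * a ^ 2 * t ^ 2) + 3 * (η * t ^ 2)) →
      lg p + η * t ^ 2 / 21 - (lg N + 20 * lg k + 5 * C + 6 + 2 * (η * γ ^ 2) +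
        4 * (η * a * γ * t)) ≤ lg q → Lo ε C₁ p q := fun p q f1 f2 => by
    refine hT t _ _ ht (f1.trans ?_) (le_trans ?_ f2)
    · have : 0 ≤ (17 + 2 * lg k + 5 * C) * t ^ 2 + (2 * (η * a ^ 2) + 3 * η) := by positivity
      linarith
    · have : 0 ≤ (lg N + 20 * lg k + 5 * C + 6 + 2 * (η * γ ^ 2)) * t + 4 * (η * a * γ) := by
        positivity
      linarith
  have m5 : η * (a * t) ^ 2 = η * a ^ 2 * t ^ 2 := by ring
  have m6 : η * (a * t + γ) ^ 2 = η * a ^ 2 * t ^ 2 + 2 * (η * a * γ * t) + η * γ ^ 2 := by ring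
  rw [m5] at b21 b22
  rw [m6] at b3 b4
  refine ⟨x, y, x', y', x'⁻¹, (x' + 1)⁻¹, s, u, v, 7 ^ n, w₁, w₂, z₁, z₂, e, e', hx,
    key _ _ (by linarith) (by linarith), key _ _ (by linarith) ?_, key _ _ (by linarith) ?_, hi,
    inv_mul_cancel₀ n3, hs, hu, hv, p1, q1, r1, t1, key _ _ (by linarith) ?_,
    key _ _ (by linarith) ?_, key _ _ (by linarith) (by linarith),
    key _ _ (by linarith) (by linarith), key _ _ (by linarith) (by linarith),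
    key _ _ (by linarith) (by linarith)⟩
  all_goals
    rw [lg_pow]
    push_cast
    linarith

end Vale.Agent.P027
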