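import Vale.Agent.P027.Glob
import Vale.Agent.P027.Inf
import Vale.Agent.P027.Gad

/-! P027 A (helper14): approximate height comparison suffices.  Definitions. -/

namespace Vale.Agent.P027

/-- logarithmic height -/
noncomputable def lg (q : ℚ) : ℝ := Real.log (Ht q)

/-- what a pair in the relation satisfies -/
def Up (ε C : ℝ) (x y : ℚ) : Prop := lg x ≤ lg y + ε * √(lg y) + C

/-- what forces a pair into the relation -/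
def Lo (ε C : ℝ) (x y : ℚ) : Prop := lg x + ε * √(lg y) + C ≤ lg y

/-- the defining formula -/
def Psi2 (R : ℚ → ℚ → Prop) (N : ℕ) (a : ℚ) : Prop :=
  ∃ x y x' y' i j s u v e w₁ w₂ z₁ z₂ : ℚ, y ^ 2 = x ^ 3 - 2 * x ∧ y' ^ 2 = x' ^ 3 - 2 * x' ∧
    x ≤ 0 ∧ R (N : ℚ) (x + 1) ∧ R (a ^ 20) (x + 1) ∧ R (e ^ 20) (x + 1) ∧ i * x' = 1 ∧
    j * (x' + 1) = 1 ∧ s * y' * x = x' * y ∧ u * (x' + 1) = y' - 1 ∧ v * (x' + 1) = y' + 1 ∧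
    w₁ * (1 + i ^ 2) = i ^ 2 ∧ w₂ * (1 + 2 * i ^ 2) = i ^ 2 ∧
    z₁ * (1 + (a - s) ^ 2) = (a - s) ^ 2 ∧ z₂ * (1 + 2 * (a - s) ^ 2) = (a - s) ^ 2 ∧
    R ((u ^ 2 - x' + 1) ^ 2) ((w₁ + 1) * e) ∧ R ((v ^ 2 - x' + 1) ^ 2) ((w₁ + 1) * e) ∧
    R (w₁ * x ^ 2) ((w₁ + 1) * e) ∧ R (w₂ * x ^ 2) ((w₂ + 1) * e) ∧
    R (z₁ * x ^ 2) ((z₁ + 1) * e) ∧ R (z₂ * x ^ 2) ((z₂ + 1) * e)

/-- Diophantine with conditions `R` on pairs of unknowns -/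
def HR (R : ℚ → ℚ → Prop) {ι : Type} (S : (ι → ℚ) → Prop) : Prop :=
  ∃ (κ : Type) (_ : Fintype κ) (F : (ι ⊕ κ → ℚ) → ℚ) (L : List (κ × κ)), IsP F ∧
    ∀ a, S a ↔ ∃ y : κ → ℚ, F (Sum.elim a y) = 0 ∧ ∀ p ∈ L, R (y p.1) (y p.2)

theorem lg_nonneg (q : ℚ) : 0 ≤ lg q :=
  Real.log_nonneg (by exact_mod_cast Ht_pos q)

theorem lg_pow (q : ℚ) (n : ℕ) : lg (q ^ n) = n * lg q := by
  simp only [lg, Ht_pow, Nat.cast_pow, Real.log_pow]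

theorem lg_le_of {p q : ℚ} {c : ℕ} (hc : 0 < c) (h : Ht p ≤ c * Ht q) :
    lg p ≤ Real.log c + lg q := by
  have h1 : (0 : ℝ) < Ht p := by exact_mod_cast Ht_pos p
  have h2 : (0 : ℝ) < Ht q := by exact_mod_cast Ht_pos q
  have h3 : (0 : ℝ) < c := by exact_mod_cast hc
  rw [lg, lg, ← Real.log_mul h3.ne' h2.ne']
  exact Real.log_le_log h1 (by exact_mod_cast h)

theorem lg_mul_le (p q : ℚ) : lg (p * q) ≤ lg p + lg q :=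
  lg_le_of (Ht_pos p) (Ht_mul_le p q)

theorem At.lg {R : G} {x y : ℚ} (h : At R x y) : P027.hh R = lg x := h.hh

theorem Psi2_mono {R R' : ℚ → ℚ → Prop} (h : ∀ p q, R p q → R' p q) {N : ℕ} {a : ℚ}
    (H : Psi2 R N a) : Psi2 R' N a := by
  obtain ⟨x, y, x', y', i, j, s, u, v, e, w₁, w₂, z₁, z₂, h1, h2, h3, h4, h5, h6, h7, h8, h9, h10,
    h11, h12, h13, h14, h15, h16, h17, h18, h19, h20, h21⟩ := H
  exact ⟨x, y, x', y', i, j, s, u, v, e, w₁, w₂, z₁, z₂, h1, h2, h3, h _ _ h4, h _ _ h5, h _ _ h6,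
    h7, h8, h9, h10, h11, h12, h13, h14, h15, h _ _ h16, h _ _ h17, h _ _ h18, h _ _ h19,
    h _ _ h20, h _ _ h21⟩

end Vale.Agent.P027
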