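import Vale.Agent.P027.A.Defs

/-! P027 A/Size2: the size of Q'.  m = |g Q'|, ga = g P, |ga| >= 1, C >= 0 (R = 0).
`sq_big`: sqrt (c L) + K <= L / n for large L (L >= 4 n^2 c and L >= 2 n K; Real.sqrt_le_iff / Real.sqrt_le_left).
`size2`: eps sqrt (2 eta) <= eta (square: 2 eta eps^2 <= eta^2).  B <= 2 eta m^2 + 2C + 2 + L/10, so
sqrt B <= sqrt (2 eta) m + sqrt (2C + 2 + L/10) <= sqrt (2 eta) m + sqrt L (Real.sqrt_le_iff.2, or sqrt (a+b) <= sqrt a + sqrt b).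
For the sign with (g Q' +- ga)^2 >= m^2 + 2m: 2 eta (m^2 + 2m) - 2C <= B + eps sqrt B + C1, so 3 eta m <= L/10 + sqrt L + 4C + 2 + C1 <= L/5.
Then eps sqrt (2 lg x' + 3L) <= eps sqrt (2 eta) m + sqrt (2C + 3L) <= L/15 + sqrt (4L) <= L/10. -/

namespace Vale.Agent.P027

theorem sq_big (c K n : ℝ) (hc : 0 ≤ c) (hn : 0 < n) :
    ∃ L₀ : ℝ, 0 < L₀ ∧ ∀ L, L₀ ≤ L → √(c * L) + K ≤ L / n := by
  have h1 : 0 ≤ 4 * n ^ 2 * c := by positivity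
  have h2 : 0 ≤ 2 * n * |K| := by positivity
  refine ⟨4 * n ^ 2 * c + 2 * n * |K| + 1, by positivity, fun L hL => ?_⟩
  have h3 : 0 < L := by linarith
  have h4 : √(c * L) ≤ L / (2 * n) := by
    refine Real.sqrt_le_iff.2 ⟨by positivity, ?_⟩
    rw [div_pow, le_div_iff₀ (by positivity)]
    nlinarith
  have h5 : |K| ≤ L / (2 * n) := by
    rw [le_div_iff₀ (by positivity)]
    linarith
  have h6 : L / n = L / (2 * n) + L / (2 * n) := by field_simp; ring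
  have := le_abs_self K
  linarith

theorem Size2_sq {ε η m B D : ℝ} (h0 : 0 < ε) (h1 : ε ≤ 1) (h2 : 4 * ε ^ 2 ≤ η) (hm : 0 ≤ m)
    (hD : 0 ≤ D) (hB : B ≤ 2 * η * m ^ 2 + D) : ε * √B ≤ η * m + √D := by
  have h3 : 0 ≤ η := le_trans (by positivity) h2
  rw [← Real.sqrt_sq h0.le, ← Real.sqrt_mul (sq_nonneg ε)]
  refine Real.sqrt_le_iff.2 ⟨by positivity, ?_⟩
  have h4 : √D ^ 2 = D := Real.sq_sqrt hD
  have h5 : ε ^ 2 ≤ 1 := by nlinarith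
  have h6 : ε ^ 2 * B ≤ ε ^ 2 * (2 * η * m ^ 2 + D) := mul_le_mul_of_nonneg_left hB (sq_nonneg ε)
  have h7 : ε ^ 2 * D ≤ D := by nlinarith
  have h8 : 4 * ε ^ 2 * (η * m ^ 2) ≤ η * (η * m ^ 2) :=
    mul_le_mul_of_nonneg_right h2 (by positivity)
  have h9 : 0 ≤ η * m * √D := by positivity
  have h10 : 0 ≤ ε ^ 2 * (η * m ^ 2) := by positivity
  nlinarith

theorem size2 {g : G →+ ℤ} {η C : ℝ} (H : Str g η C) {ε : ℝ} (h0 : 0 < ε) (h1 : ε ≤ 1)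
    (h2 : 4 * ε ^ 2 ≤ η) (C₁ : ℝ) :
    ∃ L₀ : ℝ, ∀ (Q' : G) (x' y' xp yp xm ym : ℚ) (B L : ℝ), At Q' x' y' → At (Q' + P) xp yp →
      At (Q' + -P) xm ym → L₀ ≤ L → B ≤ 2 * lg x' + 2 + L / 10 →
      2 * lg xp ≤ B + ε * √B + C₁ → 2 * lg xm ≤ B + ε * √B + C₁ →
      η * |(g Q' : ℝ)| ≤ L / 15 ∧ ε * √(2 * lg x' + 3 * L) ≤ L / 10 := by
  obtain ⟨hη, hP, hC⟩ := H
  have hC0 : 0 ≤ C := (abs_nonneg _).trans (hC 0)
  obtain ⟨L₁, p1, q1⟩ := sq_big 1 (4 * C + 2 + C₁) 10 zero_le_one (by norm_num)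
  obtain ⟨L₂, p2, q2⟩ := sq_big 4 0 30 (by norm_num) (by norm_num)
  refine ⟨L₁ + L₂ + 4 * C + 4, fun Q' x' y' xp yp xm ym B L a0 ap am hL hB hp hm => ?_⟩
  have q1 := q1 L (by linarith)
  have q2 := q2 L (by linarith)
  rw [one_mul] at q1
  have e0 := (abs_le.1 (hC Q')).2
  have ep := (abs_le.1 (hC (Q' + P))).1
  have em := (abs_le.1 (hC (Q' + -P))).1
  rw [a0.lg] at e0
  rw [ap.lg, map_add, Int.cast_add] at ep
  rw [am.lg, map_add, map_neg, Int.cast_add, Int.cast_neg] at em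
  have ha : (1 : ℝ) ≤ |(g P : ℝ)| := by exact_mod_cast Int.one_le_abs hP
  generalize (g P : ℝ) = a at *
  generalize (g Q' : ℝ) = q at *
  have hq : |q| ^ 2 = q ^ 2 := sq_abs q
  have k1 := Size2_sq (B := B) h0 h1 h2 (abs_nonneg q) (D := L) (by linarith) (by rw [hq]; linarith)
  have k2 := Size2_sq (B := 2 * lg x' + 3 * L) h0 h1 h2 (abs_nonneg q) (D := 4 * L) (by linarith)
    (by rw [hq]; linarith)
  have k3 : η * |q| ≤ η * (|q| * |a|) :=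
    mul_le_mul_of_nonneg_left (le_mul_of_one_le_right (abs_nonneg q) ha) hη.le
  have k4 : 0 ≤ η * a ^ 2 := by positivity
  rw [← abs_mul] at k3
  have k5 : η * |q| ≤ L / 15 := by
    rcases abs_choice (q * a) with h | h <;> rw [h] at k3 <;> linarith
  exact ⟨k5, by linarith⟩

end Vale.Agent.P027
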