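import Vale.Agent.P027.A.Canc
import Vale.Agent.P027.A.Size2

/-! P027 A/Gcd2: two analytic steps of the soundness proof.  L = log x.den.
`gcd_big`: for w in {w1, w2}: B = lg ((w+1) e) <= log 2 + lg w + L/10 (`w_bounds`, `lg_mul_le`, `lg_le_of`) and lg w <= log 3 + 2 lg o (`lg_pow`),
so B <= T and lg (w x^2) <= lg w + log 2 + L/10 + L/10 + C1 (Real.sqrt_le_sqrt).  `canc` and logs (`Ht_pos`, gcd > 0):
lg w + L <= log 2 + 2 log D + lg (w x^2).  So 2 log D >= L - L/5 - 2 log 2 - C1 >= 2L/3 for L >= L0 = 15 (2 + |C1|).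
`small_a`: Up gives 20 lg a <= L + eps sqrt L + C1 <= 2L for large L (`sq_big`).
`large_L`: if L < L0 then lg N <= L0 + sqrt L0 + C1 =: K; choose N0 > exp K (`Ht_nat`).
`log_small`: log (1 + L/(15 eta)) < L/5 for large L (log t <= 2 sqrt t, or Real.add_one_le_exp / isLittleO_log_id_atTop). -/

namespace Vale.Agent.P027

theorem Gcd2_one {ε C₁ T : ℝ} (h0 : 0 < ε) {c : ℕ} (hc : 0 < c) (hc2 : c ≤ 2) {o w x e : ℚ}
    (h : w * (1 + c * o ^ 2) = o ^ 2) (hL : 15 * (2 + |C₁|) ≤ Real.log x.den)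
    (he : lg e ≤ Real.log x.den / 10) (hT : 2 * lg o + 2 + Real.log x.den / 10 ≤ T)
    (hε : ε * √T ≤ Real.log x.den / 10) (hU : Up ε C₁ (w * x ^ 2) ((w + 1) * e))
    (hk : Ht w * x.den ≤ 2 * Nat.gcd o.num.natAbs x.den ^ 2 * Ht (w * x ^ 2)) :
    Real.log x.den ≤ 3 * Real.log (Nat.gcd o.num.natAbs x.den : ℕ) := by
  obtain ⟨-, b2, b3⟩ := w_bounds hc h
  have l2 := Real.log_two_lt_d9
  have l3 : Real.log (3 : ℕ) ≤ Real.log 2 + 1 / 2 := by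
    have h1 := Real.log_le_sub_one_of_pos (x := 3 / 2) (by norm_num)
    rw [Real.log_div (by norm_num) (by norm_num)] at h1
    push_cast
    linarith
  have a1 : lg (w + 1) ≤ Real.log 2 + lg w := by exact_mod_cast lg_le_of two_pos b3
  have a2 := lg_le_of (c := 3) three_pos (b2.trans (Nat.mul_le_mul_right _ (by omega)))
  rw [lg_pow] at a2
  push_cast at a2 l3
  have a3 := lg_mul_le (w + 1) e
  have a4 : ε * √(lg ((w + 1) * e)) ≤ ε * √T :=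
    mul_le_mul_of_nonneg_left (Real.sqrt_le_sqrt (by linarith)) h0.le
  have p1 : (0 : ℝ) < Ht w := by exact_mod_cast Ht_pos w
  have p2 : (0 : ℝ) < x.den := by exact_mod_cast x.den_pos
  have p3 : (0 : ℝ) < Ht (w * x ^ 2) := by exact_mod_cast Ht_pos _
  have p4 : (0 : ℝ) < (Nat.gcd o.num.natAbs x.den : ℕ) := by
    exact_mod_cast Nat.gcd_pos_of_pos_right _ x.den_pos
  have a5 : Real.log ((Ht w : ℝ) * x.den) ≤
      Real.log (2 * ((Nat.gcd o.num.natAbs x.den : ℕ) : ℝ) ^ 2 * Ht (w * x ^ 2)) :=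
    Real.log_le_log (mul_pos p1 p2) (by exact_mod_cast hk)
  rw [Real.log_mul p1.ne' p2.ne', Real.log_mul (by positivity) p3.ne',
    Real.log_mul two_ne_zero (by positivity), Real.log_pow] at a5
  have a6 := le_abs_self C₁
  have a7 := abs_nonneg C₁
  unfold Up at hU
  unfold lg at *
  push_cast at a5
  linarith

theorem gcd_big {ε : ℝ} (h0 : 0 < ε) (C₁ : ℝ) :
    ∃ L₀ : ℝ, ∀ (o w₁ w₂ x e : ℚ) (T : ℝ), w₁ * (1 + o ^ 2) = o ^ 2 →
      w₂ * (1 + 2 * o ^ 2) = o ^ 2 → x ≠ 0 → Ht x ≤ 2 * x.den → L₀ ≤ Real.log x.den →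
      lg e ≤ Real.log x.den / 10 → 2 * lg o + 2 + Real.log x.den / 10 ≤ T →
      ε * √T ≤ Real.log x.den / 10 → Up ε C₁ (w₁ * x ^ 2) ((w₁ + 1) * e) →
      Up ε C₁ (w₂ * x ^ 2) ((w₂ + 1) * e) →
      Real.log x.den ≤ 3 * Real.log (Nat.gcd o.num.natAbs x.den : ℕ) := by
  refine ⟨15 * (2 + |C₁|), fun o w₁ w₂ x e T h₁ h₂ hx0 hx hL he hT hε U₁ U₂ => ?_⟩
  rcases canc h₁ h₂ hx0 hx with hk | hk
  · exact Gcd2_one h0 one_pos one_le_two (by simpa using h₁) hL he hT hε U₁ hk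
  · exact Gcd2_one h0 two_pos le_rfl (by simpa using h₂) hL he hT hε U₂ hk

theorem small_a {ε : ℝ} (h0 : 0 < ε) (h1 : ε ≤ 1) (C₁ : ℝ) :
    ∃ L₀ : ℝ, ∀ a q : ℚ, L₀ ≤ lg q → Up ε C₁ (a ^ 20) q → lg a ≤ lg q / 10 := by
  obtain ⟨L₀, -, h⟩ := sq_big 1 C₁ 1 zero_le_one one_pos
  refine ⟨L₀, fun a q hq hU => ?_⟩
  have h2 := h _ hq
  rw [one_mul, div_one] at h2
  unfold Up at hU
  rw [lg_pow] at hU
  have h3 := mul_le_of_le_one_left (Real.sqrt_nonneg (lg q)) h1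
  push_cast at hU
  linarith

theorem large_L {ε : ℝ} (h0 : 0 < ε) (h1 : ε ≤ 1) (C₁ L₀ : ℝ) :
    ∃ N₀ : ℕ, ∀ N : ℕ, N₀ ≤ N → ∀ q : ℚ, Up ε C₁ (N : ℚ) q → L₀ ≤ lg q := by
  obtain ⟨N₀, hN⟩ := exists_nat_gt (Real.exp (L₀ + √L₀ + C₁))
  refine ⟨N₀, fun N hN' q hU => ?_⟩
  by_contra hq
  have h2 := (not_le.1 hq).le
  have h3 := mul_le_of_le_one_left (Real.sqrt_nonneg (lg q)) h1
  have h4 := Real.sqrt_le_sqrt h2
  have h5 : Real.exp (L₀ + √L₀ + C₁) < Ht (N : ℚ) :=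
    hN.trans_le (by exact_mod_cast hN'.trans (by simp [Ht]))
  have h6 : L₀ + √L₀ + C₁ < lg (N : ℚ) := by
    rw [lg, Real.lt_log_iff_exp_lt ((Real.exp_pos _).trans h5)]
    exact h5
  unfold Up at hU
  linarith

theorem log_small {η : ℝ} (hη : 0 < η) :
    ∃ L₀ : ℝ, ∀ L, L₀ ≤ L → Real.log (1 + L / (15 * η)) < L / 5 := by
  obtain ⟨L₀, h0, h⟩ := sq_big (4 / (15 * η)) 1 5 (by positivity) (by norm_num)
  refine ⟨L₀, fun L hL => ?_⟩
  have h1 := h L hL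
  have h2 : 0 ≤ L / (15 * η) := div_nonneg (h0.le.trans hL) (by positivity)
  have h3 : √(4 / (15 * η) * L) = 2 * √(L / (15 * η)) := by
    rw [show 4 / (15 * η) * L = 2 ^ 2 * (L / (15 * η)) by ring, Real.sqrt_mul (by norm_num),
      Real.sqrt_sq (by norm_num)]
  obtain ⟨s, hs, e⟩ : ∃ s : ℝ, 0 ≤ s ∧ √(L / (15 * η)) = s := ⟨_, Real.sqrt_nonneg _, rfl⟩
  have h4 : L / (15 * η) = s ^ 2 := by rw [← e, Real.sq_sqrt h2]
  have h5 : Real.log (1 + s ^ 2) ≤ Real.log ((1 + s) ^ 2) :=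
    Real.log_le_log (by positivity) (by nlinarith)
  have h6 := Real.log_le_sub_one_of_pos (x := 1 + s) (by positivity)
  rw [Real.log_pow] at h5
  rw [h3, e] at h1
  rw [h4]
  push_cast at h5
  linarith

end Vale.Agent.P027
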