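import Vale.Agent.P027.A.Defs
import Vale.Agent.P027.HDa

/-! P027 A/HRa: closure properties of HR (helper14). -/

namespace Vale.Agent.P027

variable {ι κ : Type} {R : ℚ → ℚ → Prop}

theorem HR.of_iff {S S' : (ι → ℚ) → Prop} (h : HR R S) (e : ∀ a, S' a ↔ S a) : HR R S' := by
  obtain ⟨κ, i, F, L, hF, h⟩ := h
  exact ⟨κ, i, F, L, hF, fun a => (e a).trans (h a)⟩

theorem HR.eq {F G : (ι → ℚ) → ℚ} (hF : IsP F) (hG : IsP G) : HR R fun a => F a = G a := by
  refine ⟨Empty, inferInstance, fun v => F (fun i => v (.inl i)) - G (fun i => v (.inl i)), [],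
    (hF.comp fun i => IsP.proj _).sub (hG.comp fun i => IsP.proj _), fun a => ?_⟩
  simp [sub_eq_zero]

theorem HR.rel {F G : (ι → ℚ) → ℚ} (hF : IsP F) (hG : IsP G) :
    HR R fun a => R (F a) (G a) := by
  refine ⟨Bool, inferInstance, fun v => (v (.inr true) - F (fun i => v (.inl i))) ^ 2 +
    (v (.inr false) - G (fun i => v (.inl i))) ^ 2, [(true, false)],
    (((IsP.proj _).sub (hF.comp fun i => IsP.proj _)).pow 2).add
      (((IsP.proj _).sub (hG.comp fun i => IsP.proj _)).pow 2), fun a => ?_⟩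
  simp only [Sum.elim_inl, Sum.elim_inr, List.mem_singleton, forall_eq]
  constructor
  · intro h
    exact ⟨fun b => if b then F a else G a, by simp, by simpa using h⟩
  · rintro ⟨y, h1, h2⟩
    obtain ⟨e1, e2⟩ := hda_sq h1
    rw [← sub_eq_zero.1 e1, ← sub_eq_zero.1 e2]
    exact h2

theorem HR.le {F G : (ι → ℚ) → ℚ} (hF : IsP F) (hG : IsP G) : HR R fun a => F a ≤ G a := by
  refine ⟨Fin 4, inferInstance, fun v => G (fun i => v (.inl i)) - F (fun i => v (.inl i)) -
    (v (.inr 0) ^ 2 + v (.inr 1) ^ 2 + v (.inr 2) ^ 2 + v (.inr 3) ^ 2), [],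
    ((hG.comp fun i => IsP.proj _).sub (hF.comp fun i => IsP.proj _)).sub
      (((((IsP.proj _).pow 2).add ((IsP.proj _).pow 2)).add ((IsP.proj _).pow 2)).add
        ((IsP.proj _).pow 2)), fun a => ?_⟩
  simp only [Sum.elim_inl, Sum.elim_inr, List.not_mem_nil, false_imp_iff, implies_true, and_true]
  constructor
  · intro h
    obtain ⟨b, c, d, e, he⟩ := hda_four (sub_nonneg.2 h)
    exact ⟨![b, c, d, e], by simp [he]⟩
  · rintro ⟨y, h⟩
    nlinarith [sq_nonneg (y 0), sq_nonneg (y 1), sq_nonneg (y 2), sq_nonneg (y 3)]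

theorem HR.and {S S' : (ι → ℚ) → Prop} (h : HR R S) (h' : HR R S') : HR R fun a => S a ∧ S' a := by
  obtain ⟨κ, i, F, L, hF, h⟩ := h
  obtain ⟨κ', i', F', L', hF', h'⟩ := h'
  refine ⟨κ ⊕ κ', inferInstance, fun v => F (fun i => v (Sum.map id .inl i)) ^ 2 +
    F' (fun i => v (Sum.map id .inr i)) ^ 2,
    L.map (Prod.map .inl .inl) ++ L'.map (Prod.map .inr .inr),
    ((hF.comp fun i => IsP.proj _).pow 2).add ((hF'.comp fun i => IsP.proj _).pow 2), fun a => ?_⟩
  simp only [hda_l, hda_r, List.mem_append, List.mem_map, or_imp, forall_and,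
    forall_exists_index, and_imp, forall_apply_eq_imp_iff₂, Prod.map_fst, Prod.map_snd, h, h']
  constructor
  · rintro ⟨⟨y, h1, h2⟩, ⟨y', h1', h2'⟩⟩
    exact ⟨Sum.elim y y', by simp [h1, h1'], by simpa using h2, by simpa using h2'⟩
  · rintro ⟨y, h1, h2, h3⟩
    obtain ⟨e1, e2⟩ := hda_sq h1
    exact ⟨⟨_, e1, h2⟩, ⟨_, e2, h3⟩⟩

theorem HR.comp {S : (ι → ℚ) → Prop} (h : HR R S) {φ : ι → (κ → ℚ) → ℚ} (hφ : ∀ i, IsP (φ i)) :
    HR R fun b => S fun i => φ i b := by
  obtain ⟨μ, i, F, L, hF, h⟩ := h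
  refine ⟨μ, i, fun v => F (fun s => Sum.elim (fun i (v : κ ⊕ μ → ℚ) => φ i fun k => v (.inl k))
    (fun j v => v (.inr j)) s v), L, hF.comp ?_, fun a => ?_⟩
  · rintro (s | s)
    · exact (hφ s).comp fun k => IsP.proj _
    · exact IsP.proj _
  · beta_reduce
    rw [h]
    refine exists_congr fun y => and_congr ?_ Iff.rfl
    have : (fun s => Sum.elim (fun i (v : κ ⊕ μ → ℚ) => φ i fun k => v (.inl k))
        (fun j v => v (.inr j)) s (Sum.elim a y)) = Sum.elim (fun i => φ i a) y := by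
      funext s
      rcases s with s | s <;> rfl
    simp only [this]

theorem HR.exN [Fintype κ] {S : (ι → ℚ) → (κ → ℚ) → Prop}
    (h : HR R fun v : ι ⊕ κ → ℚ => S (fun i => v (.inl i)) fun j => v (.inr j)) :
    HR R fun a => ∃ y, S a y := by
  obtain ⟨μ, i, F, L, hF, h⟩ := h
  refine ⟨κ ⊕ μ, inferInstance, fun v => F (fun s => v (Equiv.sumAssoc ι κ μ s)),
    L.map (Prod.map .inr .inr), hF.comp fun i => IsP.proj _, fun a => ?_⟩
  have e : ∀ y : κ ⊕ μ → ℚ, (fun s => Sum.elim a y (Equiv.sumAssoc ι κ μ s)) =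
      Sum.elim (Sum.elim a fun j => y (.inl j)) fun j => y (.inr j) := by
    intro y
    funext s
    rcases s with (s | s) | s <;> rfl
  simp only [e, List.mem_map, forall_exists_index, and_imp, forall_apply_eq_imp_iff₂,
    Prod.map_fst, Prod.map_snd]
  constructor
  · rintro ⟨y, hy⟩
    obtain ⟨z, h1, h2⟩ := (h (Sum.elim a y)).1 hy
    exact ⟨Sum.elim y z, h1, h2⟩
  · rintro ⟨y, h1, h2⟩
    exact ⟨_, (h (Sum.elim a fun j => y (.inl j))).2 ⟨_, h1, h2⟩⟩

theorem HR.ex {S : (ι → ℚ) → ℚ → Prop}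
    (h : HR R fun v : Option ι → ℚ => S (fun i => v (some i)) (v none)) :
    HR R fun a => ∃ x, S a x := by
  have h2 : HR R fun v : ι ⊕ Unit → ℚ => S (fun i => v (.inl i)) (v (.inr ())) :=
    h.comp (φ := fun o (v : ι ⊕ Unit → ℚ) => v (o.elim (.inr ()) .inl)) fun o => IsP.proj _
  refine (HR.exN (S := fun a (y : Unit → ℚ) => S a (y ())) h2).of_iff fun a => ?_
  exact ⟨fun ⟨x, hx⟩ => ⟨fun _ => x, hx⟩, fun ⟨y, hy⟩ => ⟨_, hy⟩⟩

theorem HR.all [Fintype κ] {S : κ → (ι → ℚ) → Prop} (h : ∀ j, HR R (S j)) :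
    HR R fun a => ∀ j, S j a := by
  classical
  have : ∀ s : Finset κ, HR R fun a => ∀ j ∈ s, S j a := by
    intro s
    induction s using Finset.induction_on with
    | empty => exact (HR.eq IsP.zero IsP.zero).of_iff fun a => by simp
    | insert j s _ ih => exact ((h j).and ih).of_iff fun a => by simp
  exact (this Finset.univ).of_iff fun a => by simp

theorem HR.allList {α : Type} {S : α → (ι → ℚ) → Prop} (h : ∀ j, HR R (S j)) (l : List α) :
    HR R fun a => ∀ j ∈ l, S j a := by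
  induction l with
  | nil => exact (HR.eq IsP.zero IsP.zero).of_iff fun a => by simp
  | cons j l ih => exact ((h j).and ih).of_iff fun a => by simp

/-- if `R` itself is definable from `R'` then so is everything definable from `R` -/
theorem HR.trans {R' : ℚ → ℚ → Prop} {S : (ι → ℚ) → Prop} (h : HR R S)
    (hR : HR R' fun v : Bool → ℚ => R (v true) (v false)) : HR R' S := by
  obtain ⟨μ, i, F, L, hF, h⟩ := h
  refine HR.of_iff (HR.exN (S := fun a (y : μ → ℚ) => F (Sum.elim a y) = 0 ∧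
    ∀ p ∈ L, R (y p.1) (y p.2)) ?_) h
  refine HR.and ((HR.eq hF IsP.zero).of_iff fun v => ?_) (HR.allList (fun p : μ × μ => ?_) L)
  · have e : (Sum.elim (fun i => v (.inl i)) fun j => v (.inr j)) = v := funext fun x => by
      cases x <;> rfl
    rw [e]
  · exact hR.comp (φ := fun b (v : ι ⊕ μ → ℚ) => v (.inr (if b then p.1 else p.2)))
      fun b => IsP.proj _

end Vale.Agent.P027
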