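import Vale.Agent.P027.A.Defs
import Vale.Agent.P027.SoundA

/-! P027 A/Mul2: a large common factor of the denominators forces a multiple.
`glob_comb2`: by `loc_den` fix a prime p | d (N d < 1, padicNorm.nat_lt_one_iff).  For R with Dv d R put rho R = N (tt R) if R /= 0; then N x > 1,
`fg_basic` gives N (x/y)^2 * N x = 1, so 0 < rho < 1 and rho^2 <= N d.  Let rho be the max over the nonzero ones among R, S (if both
are zero the combination is 0 and `At.ne` applies; V p rho 0 is trivial); V p rho R and V p rho S, `fg_zsmul`, `fg_add`, and rho^2 <= N d.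
`mul2`: copy the proof of `sound_mul` (P027/SoundA.lean) with the modulus D instead of x.den: L = log x.den, log D >= L / 3.
(1) Dv D R and g R = 0 give R = 0 since log D > C.  (2) gcd step with `glob_comb2`.  (3) R0 = (a, b): lg a >= log D >= L/3 and
lg x <= log 2 + L (`egg_ht`), so eta i^2 r^2 - C <= log 2 + 3 (eta r^2 + C); i^2 >= 4 gives eta r^2 <= 4C + 1 and
L <= 3 (5C + 1).  Take L0 = 15 C + 4. -/

namespace Vale.Agent.P027

theorem Mul2_rho {d p : ℕ} (hd : d ≠ 0) (hp : p.Prime) (h : p ∣ d) {R : G} (hR : Dv d R) :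
    ∃ ρ : ℚ, 0 < ρ ∧ ρ < 1 ∧ ρ ^ 2 ≤ padicNorm p d ∧ V p ρ R := by
  have := Fact.mk hp
  rcases at_or R with rfl | ⟨x, y, hx⟩
  · obtain ⟨-, h1, h2⟩ := norm_den hp (x := (d : ℚ)⁻¹) (by rwa [Rat.inv_natCast_den, if_neg hd])
    rw [Rat.inv_natCast_den, if_neg hd] at h1 h2
    exact ⟨_, h1, h2, by nlinarith, FGb_zero⟩
  · obtain ⟨k, hk⟩ := hR x y hx
    have h1 : p ∣ x.den := h.trans (hR x y hx)
    obtain ⟨r0, r1, r2, -, -⟩ := glob_rho hx hp h1
    refine ⟨_, r0, r1, ?_, FGb_V hx ?_⟩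
    · rw [r2, hk, Nat.cast_mul, padicNorm.mul]
      exact mul_le_of_le_one_right (padicNorm.nonneg _) (padicNorm.of_nat k)
    · rw [r2, (norm_den hp h1).1]

theorem Mul2_mono {p : ℕ} {ρ ρ' : ℚ} (h0 : 0 ≤ ρ) (h : ρ ≤ ρ') {R : G} (hR : V p ρ R) :
    V p ρ' R := fun x y hx =>
  (hR x y hx).trans (mul_le_mul_of_nonneg_left (pow_le_pow_left₀ h0 h 2) (padicNorm.nonneg _))

theorem glob_comb2 {d : ℕ} (hd : d ≠ 0) {R S : G} (hR : Dv d R) (hS : Dv d S) (i j : ℤ) :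
    Dv d (i • R + j • S) := by
  intro x' y' h'
  refine (loc_den hd x').2 fun p hp h => ?_
  have := Fact.mk hp
  obtain ⟨a, a0, a1, a2, a3⟩ := Mul2_rho hd hp h hR
  obtain ⟨b, b0, b1, b2, b3⟩ := Mul2_rho hd hp h hS
  have r0 : 0 < max a b := lt_max_of_lt_left a0
  have r1 : max a b < 1 := max_lt a1 b1
  have r2 : max a b ^ 2 ≤ padicNorm p d := by
    rcases max_choice a b with e | e <;> rwa [e]
  have h1 := (fg_add r0 r1 (fg_zsmul r0 r1 (Mul2_mono a0.le (le_max_left a b) a3) i).1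
    (fg_zsmul r0 r1 (Mul2_mono b0.le (le_max_right a b) b3) j).1).1 x' y' h'
  exact h1.trans (mul_le_mul_of_nonneg_left r2 (padicNorm.nonneg _))

theorem Mul2_eq {g : G →+ ℤ} {η C : ℝ} (H : Str g η C) {d : ℕ} (hd : 0 < d)
    (hC : C < Real.log d) {R S : G} (hR : Dv d R) (hS : Dv d S) (i : ℤ)
    (hg : g S = g R * i) : S = i • R := by
  have h1 := glob_comb2 hd.ne' hR hS i (-1)
  have h2 := SoundA_zero H hd hC h1 (by
    rw [map_add, map_zsmul, map_zsmul, hg, smul_eq_mul, smul_eq_mul]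
    ring)
  rw [neg_one_zsmul, add_neg_eq_zero] at h2
  exact h2.symm

theorem mul2 {g : G →+ ℤ} {η C : ℝ} (H : Str g η C) :
    ∃ L₀ : ℝ, ∀ (Q Q' : G) (x y x' y' : ℚ) (D : ℕ), At Q x y → At Q' x' y' → x ≤ 0 →
      L₀ ≤ Real.log x.den → D ∣ x.den → D ∣ x'.den → Real.log x.den ≤ 3 * Real.log D →
      ∃ k : ℤ, Q' = k • Q := by
  have hC : 0 ≤ C := (abs_nonneg _).trans (H.2.2 0)
  refine ⟨15 * C + 4, fun Q Q' x y x' y' D hQ hQ' hx hN hD hD' hL => ?_⟩
  have hd : (0 : ℝ) < x.den := by exact_mod_cast x.den_pos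
  have hD0 : 0 < D := Nat.pos_of_dvd_of_pos hD x.den_pos
  have hC' : C < Real.log D := by linarith
  have DQ : Dv D Q := fun a b h => by rw [← (hQ.uniq h).1]; exact hD
  have DQ' : Dv D Q' := fun a b h => by rw [← (hQ'.uniq h).1]; exact hD'
  obtain ⟨R, hRd, hRg⟩ : ∃ R : G, Dv D R ∧ g R = (Int.gcd (g Q) (g Q') : ℤ) := by
    refine ⟨_, glob_comb2 hD0.ne' DQ DQ' (Int.gcdA (g Q) (g Q')) (Int.gcdB (g Q) (g Q')), ?_⟩
    rw [map_add, map_zsmul, map_zsmul, smul_eq_mul, smul_eq_mul, Int.gcd_eq_gcd_ab]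
    ring
  obtain ⟨i, hi⟩ : g R ∣ g Q := by rw [hRg]; exact Int.gcd_dvd_left _ _
  obtain ⟨i', hi'⟩ : g R ∣ g Q' := by rw [hRg]; exact Int.gcd_dvd_right _ _
  have e1 : Q = i • R := Mul2_eq H hD0 hC' hRd DQ i hi
  have e2 : Q' = i' • R := Mul2_eq H hD0 hC' hRd DQ' i' hi'
  have hR0 : R ≠ 0 := fun h => hQ.ne (by rw [e1, h]; exact zsmul_zero i)
  have hi0 : i ≠ 0 := fun h => hQ.ne (by rw [e1, h]; exact zero_zsmul R)
  have hlow := SoundA_low hD0 hRd hR0
  have hup : hh Q ≤ 1 + Real.log x.den := by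
    rw [hQ.hh]
    have h1 : (Ht x : ℝ) ≤ 2 * x.den := by exact_mod_cast (egg_ht hQ.eq hx).2
    have h2 : (0 : ℝ) < Ht x := by exact_mod_cast Ht_pos x
    have h3 := Real.log_le_log h2 h1
    rw [Real.log_mul two_ne_zero hd.ne'] at h3
    have h4 : Real.log 2 ≤ 1 := by
      have := Real.log_le_sub_one_of_pos (show (0 : ℝ) < 2 by norm_num)
      linarith
    linarith
  have b1 := (abs_le.1 (H.2.2 Q)).1
  have b2 := (abs_le.1 (H.2.2 R)).2
  have hsq : i ^ 2 < 4 := by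
    by_contra hc
    have h4 : (4 : ℝ) ≤ (i : ℝ) ^ 2 := by exact_mod_cast not_lt.1 hc
    have h5 : 0 ≤ η * (g R : ℝ) ^ 2 := mul_nonneg H.1.le (sq_nonneg _)
    have h6 : η * (g Q : ℝ) ^ 2 = η * (g R : ℝ) ^ 2 * (i : ℝ) ^ 2 := by
      rw [hi]
      push_cast
      ring
    have h7 := mul_le_mul_of_nonneg_left h4 h5
    linarith
  have hii : i * i = 1 := by
    have h1 : -2 < i := by nlinarith
    have h2 : i < 2 := by nlinarith
    interval_cases i
    · rfl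
    · exact absurd rfl hi0
    · rfl
  refine ⟨i' * i, ?_⟩
  rw [e2, e1, smul_smul, mul_assoc, hii, mul_one]

end Vale.Agent.P027
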