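import Vale.Agent.P027.A.Gcd2
import Vale.Agent.P027.A.HtT
import Vale.Agent.P027.A.Mul2
import Vale.Agent.P027.Sound

/-! P027 A/Sound2: soundness.  L = log x.den = lg (x+1) (`egg_ht`), L >= L0 = max of all thresholds, of 100 and more (`large_L`).
x /= 0 (else den = 1, L = 0).  `small_a`: lg a, lg e <= L/10.  x' /= 0, x' /= -1, `at_ex`, `At.chord` with `at_P`, `at_P.neg` (as in
P027/Sound.lean) give the points Q' + P, Q' + -P.  B = lg ((w1+1) e) <= log 2 + log 2 + 2 lg x' + L/10 (`w_bounds` with c = 1,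
`inv_num`, `lg_pow`); `size2`.  `gcd_big` with o = i and with o = a - s, T = 2 lg x' + 3L (`lg_sub_s`, lg x <= log 2 + L).
`mul2` with D = gcd |num i| x.den (|num i| = den x'): Q' = k Q.  k = 0 is impossible (`At.ne`); g Q /= 0 (else L <= lg x <= C),
so |k| <= |g Q'| <= L/(15 eta).  `glob_cong`, `dvd_num_sub` with D2 = gcd |num (a-s)| x.den: D2 | num (a - k).  `sound_num`, `log_small`:
log (Ht a (1+|k|)) < L/10 + L/5 <= L/3 <= log D2, hence num (a - k) = 0. -/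

namespace Vale.Agent.P027

theorem sound2 {g : G →+ ℤ} {η C : ℝ} (H : Str g η C) {ε : ℝ} (h0 : 0 < ε) (h1 : ε ≤ 1)
    (h2 : 4 * ε ^ 2 ≤ η) (C₁ : ℝ) :
    ∃ N : ℕ, ∀ a : ℚ, Psi2 (Up ε C₁) N a → ∃ z : ℤ, a = z := by
  obtain ⟨L1, hG⟩ := gcd_big h0 C₁
  obtain ⟨L2, hA⟩ := small_a h0 h1 C₁
  obtain ⟨L3, hM⟩ := mul2 H
  obtain ⟨L4, hS⟩ := size2 H h0 h1 h2 C₁
  obtain ⟨L5, hl⟩ := log_small H.1
  obtain ⟨N, hN⟩ := large_L h0 h1 C₁ (|L1| + |L2| + |L3| + |L4| + |L5| + |C| + 100)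
  refine ⟨N, fun a h => ?_⟩
  obtain ⟨x, y, x', y', i, j, s, u, v, e, w₁, w₂, z₁, z₂, e1, e2, hx, r1, r2, r3, hi, hj, hs, hu,
    hv, hw1, hw2, hz1, hz2, r4, r5, r6, r7, r8, r9⟩ := h
  have hd := egg_ht e1 hx
  have hL : lg (x + 1) = Real.log x.den := by rw [lg, hd.1]
  have hL0 := hN N le_rfl _ r1
  have a1 := le_abs_self L1
  have a2 := le_abs_self L2
  have a3 := le_abs_self L3
  have a4 := le_abs_self L4
  have a5 := le_abs_self L5
  have a6 := le_abs_self C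
  have b1 := abs_nonneg L1
  have b2 := abs_nonneg L2
  have b3 := abs_nonneg L3
  have b4 := abs_nonneg L4
  have b5 := abs_nonneg L5
  have b6 := abs_nonneg C
  have la := hA a _ (by linarith) r2
  have le := hA e _ (by linarith) r3
  rw [hL] at hL0 la le
  have l2 := Real.log_two_lt_d9
  have hx0 : x ≠ 0 := by
    rintro rfl
    rw [Rat.den_zero, Nat.cast_one, Real.log_one] at hL0
    linarith
  have hx' : x' ≠ 0 := right_ne_zero_of_mul_eq_one hi
  have hne : x' ≠ -1 := by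
    rintro rfl
    norm_num at hj
  obtain ⟨Q, hQ⟩ := at_ex e1
  obtain ⟨Q', hQ'⟩ := at_ex e2
  obtain ⟨yp, hp⟩ := hQ'.chord (l := u) at_P hne (by linarith)
  obtain ⟨ym, hm⟩ := hQ'.chord (l := v) at_P.neg hne (by linarith)
  rw [sub_neg_eq_add] at hp hm
  have hii : lg i = lg x' := by rw [lg, lg, (inv_num hi).2]
  obtain ⟨-, c1, c2⟩ := w_bounds (c := 1) (o := i) (w := w₁) one_pos
    (by rw [Nat.cast_one, one_mul]; exact hw1)
  have c3 := lg_le_of (c := 2) two_pos c1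
  have c4 := lg_le_of (c := 2) two_pos c2
  have c5 := lg_mul_le (w₁ + 1) e
  rw [lg_pow, hii] at c3
  rw [Up, lg_pow] at r4 r5
  push_cast at c3 c4 r4 r5
  obtain ⟨s1, s2⟩ := hS Q' x' y' _ _ _ _ (lg ((w₁ + 1) * e)) (Real.log x.den) hQ' hp hm
    (by linarith) (by linarith) r4 r5
  have hden : (0 : ℝ) < x.den := by exact_mod_cast x.den_pos
  have hHt : (0 : ℝ) < Ht x := by exact_mod_cast Ht_pos x
  have lx : lg x ≤ Real.log 2 + Real.log x.den := by
    rw [lg, ← Real.log_mul two_ne_zero hden.ne']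
    exact Real.log_le_log hHt (by exact_mod_cast hd.2)
  have lx' : Real.log x.den ≤ lg x :=
    Real.log_le_log hden (by exact_mod_cast le_max_right x.num.natAbs x.den)
  have l8 : Real.log 8 = 3 * Real.log 2 := by
    rw [show (8 : ℝ) = 2 ^ 3 by norm_num, Real.log_pow]
    norm_num
  have ls := lg_sub_s a e1 e2 hx0 hx' hs
  have g1 := hG i w₁ w₂ x e _ hw1 hw2 hx0 hd.2 (by linarith) le (by rw [hii]; linarith) s2 r6 r7
  have g2 := hG (a - s) z₁ z₂ x e _ hz1 hz2 hx0 hd.2 (by linarith) le (by linarith) s2 r8 r9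
  obtain ⟨k, rfl⟩ := hM Q Q' x y x' y' _ hQ hQ' hx (by linarith) (Nat.gcd_dvd_right _ _)
    ((inv_num hi).1 ▸ Nat.gcd_dvd_left _ _) g1
  have hg : g Q ≠ 0 := fun hg => by
    have h3 := (abs_le.1 (H.2.2 Q)).2
    rw [hg, hQ.lg] at h3
    norm_num at h3
    linarith
  have hk : |(k : ℝ)| ≤ Real.log x.den / (15 * η) := by
    have h3 : (1 : ℝ) ≤ |(g Q : ℝ)| := by exact_mod_cast Int.one_le_abs hg
    rw [map_zsmul, smul_eq_mul, Int.cast_mul, abs_mul] at s1
    have h4 : |(k : ℝ)| ≤ |(k : ℝ)| * |(g Q : ℝ)| := le_mul_of_one_le_right (abs_nonneg _) h3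
    have h5 := mul_le_mul_of_nonneg_left h4 H.1.le
    rw [le_div_iff₀ (by linarith [H.1])]
    linarith
  have hD : 0 < Nat.gcd (a - s).num.natAbs x.den := Nat.gcd_pos_of_pos_right _ x.den_pos
  have d3 := dvd_num_sub hD.ne' (Nat.gcd_dvd_left _ _)
    ((Nat.gcd_dvd_right _ _).trans (glob_cong hQ k hQ' hs))
  rw [sub_sub_sub_cancel_right] at d3
  have h3 : (a - k).num.natAbs < Nat.gcd (a - s).num.natAbs x.den := by
    refine (sound_num a k).trans_lt (not_le.1 fun h4 => ?_)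
    have hD' : (0 : ℝ) < (Nat.gcd (a - s).num.natAbs x.den : ℕ) := by exact_mod_cast hD
    have ha : (0 : ℝ) < Ht a := by exact_mod_cast Ht_pos a
    have hk0 := abs_nonneg (k : ℝ)
    have h5 : ((Nat.gcd (a - s).num.natAbs x.den : ℕ) : ℝ) ≤ Ht a * (1 + |(k : ℝ)|) := by
      rw [← Int.cast_abs, ← Int.natCast_natAbs]
      exact_mod_cast h4
    have h6 := Real.log_le_log hD' h5
    rw [Real.log_mul ha.ne' (by linarith)] at h6
    have h7 : Real.log (1 + |(k : ℝ)|) ≤ Real.log (1 + Real.log x.den / (15 * η)) :=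
      Real.log_le_log (by linarith) (by linarith)
    have h8 := hl (Real.log x.den) (by linarith)
    rw [lg] at la
    linarith
  have h4 := Nat.eq_zero_of_dvd_of_lt d3 h3
  rw [Int.natAbs_eq_zero, Rat.num_eq_zero, sub_eq_zero] at h4
  exact ⟨k, h4⟩

end Vale.Agent.P027
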