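import Vale.Agent.P027.A.HRa
import Vale.Agent.P027.A.Sound2
import Vale.Agent.P027.A.Comp2
import Vale.Agent.P027.Main

/-! P027 A/Main2: the integers and all r.e. sets are definable from an approximate height
comparison (helper14). -/

namespace Vale.Agent.P027

variable {R : ℚ → ℚ → Prop}

theorem HR.psi2 (N : ℕ) : HR R fun a : Unit → ℚ => Psi2 R N (a () ^ 2 + 1) := by
  refine (HR.ex (HR.ex (HR.ex (HR.ex (HR.ex (HR.ex (HR.ex (HR.ex (HR.ex (HR.ex (HR.ex (HR.ex (HR.ex (HR.ex ?_))))))))))))))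
  beta_reduce
  refine ((HR.eq ?_ ?_).and
    ((HR.eq ?_ ?_).and
    ((HR.le ?_ ?_).and
    ((HR.rel ?_ ?_).and
    ((HR.rel ?_ ?_).and
    ((HR.rel ?_ ?_).and
    ((HR.eq ?_ ?_).and
    ((HR.eq ?_ ?_).and
    ((HR.eq ?_ ?_).and
    ((HR.eq ?_ ?_).and
    ((HR.eq ?_ ?_).and
    ((HR.eq ?_ ?_).and
    ((HR.eq ?_ ?_).and
    ((HR.eq ?_ ?_).and
    ((HR.eq ?_ ?_).and
    ((HR.rel ?_ ?_).and
    ((HR.rel ?_ ?_).and
    ((HR.rel ?_ ?_).and
    ((HR.rel ?_ ?_).and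
    ((HR.rel ?_ ?_).and
    (HR.rel ?_ ?_))))))))))))))))))))) <;>
    repeat' first
      | exact IsP.proj _ | exact IsP.one | exact IsP.two | exact IsP.zero | exact IsP.nat _
      | apply IsP.add | apply IsP.sub | apply IsP.mul | apply IsP.pow

theorem int_of_sq {a : ℚ} {z : ℤ} (h : a ^ 2 + 1 = z) : ∃ k : ℤ, a = k := by
  have h1 : a ^ 2 = ((z - 1 : ℤ) : ℚ) := by push_cast; linarith
  have h2 : a.den ^ 2 = 1 := by rw [← Rat.den_pow, h1, Rat.den_intCast]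
  have h3 : a.den = 1 := (Nat.pow_eq_one.1 h2).resolve_right two_ne_zero
  exact ⟨a.num, ((Rat.den_eq_one_iff a).1 h3).symm⟩

theorem approx_int : ∃ ε : ℝ, 0 < ε ∧ ∀ (C : ℝ) (R : ℚ → ℚ → Prop),
    (∀ x y, Lo ε C x y → R x y) → (∀ x y, R x y → Up ε C x y) →
    HR R fun a : Unit → ℚ => ∃ z : ℤ, a () = z := by
  obtain ⟨g, η, C₀, H⟩ := str_ex
  have hη : 0 < η := H.1
  have hs : 0 < √η := Real.sqrt_pos.2 hη
  have h0 : 0 < min 1 (√η / 2) := lt_min one_pos (by positivity)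
  have h2 : 4 * min 1 (√η / 2) ^ 2 ≤ η := by
    have : min 1 (√η / 2) ^ 2 ≤ (√η / 2) ^ 2 := pow_le_pow_left₀ h0.le (min_le_right _ _) 2
    have h3 : √η ^ 2 = η := Real.sq_sqrt hη.le
    nlinarith
  refine ⟨_, h0, fun C R hlo hup => ?_⟩
  obtain ⟨N, hN⟩ := sound2 H h0 (min_le_left _ _) h2 C
  refine (HR.psi2 N).of_iff fun a => ⟨?_, fun h => ?_⟩
  · rintro ⟨z, hz⟩
    have := comp2 H h0 (min_le_left _ _) C N (z ^ 2 + 1) (by positivity)
    rw [hz]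
    exact Psi2_mono hlo (by simpa using this)
  · obtain ⟨z, hz⟩ := hN _ (Psi2_mono hup h)
    exact int_of_sq hz

theorem HR.out {n : ℕ} {S : (Fin n → ℚ) → Prop} (h : HR R S) :
    ∃ (m : ℕ) (f : MvPolynomial (Fin n ⊕ Fin m) ℤ) (L : List (Fin m × Fin m)),
      ∀ a, S a ↔ ∃ y : Fin m → ℚ, MvPolynomial.aeval (Sum.elim a y) f = 0 ∧
        ∀ p ∈ L, R (y p.1) (y p.2) := by
  obtain ⟨κ, _, F, L, ⟨f, hf⟩, hS⟩ := h
  let e := Fintype.equivFin κ
  have key : ∀ (a : Fin n → ℚ) (y : Fin (Fintype.card κ) → ℚ),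
      MvPolynomial.aeval (Sum.elim a y) (MvPolynomial.rename (Sum.map id e) f) =
        F (Sum.elim a fun k => y (e k)) := fun a y => by
    rw [MvPolynomial.aeval_rename, hf]
    congr 2
    funext s
    cases s <;> rfl
  refine ⟨_, MvPolynomial.rename (Sum.map id e) f, L.map (fun p => (e p.1, e p.2)),
    fun a => (hS a).trans ⟨?_, ?_⟩⟩
  · rintro ⟨y, h3, h4⟩
    refine ⟨fun j => y (e.symm j), by simpa only [key, Equiv.symm_apply_apply] using h3,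
      fun p hp => ?_⟩
    obtain ⟨q, hq, rfl⟩ := List.mem_map.1 hp
    simpa only [Equiv.symm_apply_apply] using h4 q hq
  · rintro ⟨y, h3, h4⟩
    exact ⟨fun k => y (e k), (key a y).symm.trans h3, fun p hp => h4 _ (List.mem_map_of_mem hp)⟩

theorem HR.isNat (hZ : HR R fun a : Unit → ℚ => ∃ z : ℤ, a () = z) {ι : Type} {F : (ι → ℚ) → ℚ}
    (hF : IsP F) : HR R fun a => ∃ n : ℕ, F a = n := by
  refine ((hZ.comp (φ := fun _ => F) fun _ => hF).and (HR.le IsP.zero hF)).of_iff fun a => ⟨?_, ?_⟩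
  · rintro ⟨n, hn⟩
    exact ⟨⟨n, by rw [hn, Int.cast_natCast]⟩, by rw [hn]; exact Nat.cast_nonneg n⟩
  · rintro ⟨⟨z, hz⟩, h0⟩
    change F a = z at hz
    rw [hz] at h0
    obtain ⟨n, rfl⟩ := Int.eq_ofNat_of_zero_le (Int.cast_nonneg_iff.1 h0)
    exact ⟨n, by rw [hz, Int.cast_natCast]⟩

theorem HR.re (hZ : HR R fun a : Unit → ℚ => ∃ z : ℤ, a () = z) {n : ℕ}
    (S : Set (Fin n → ℕ)) (hS : REPred fun s => s ∈ S) :
    HR R fun a : Fin n → ℚ => ∃ s ∈ S, a = fun i => (s i : ℚ) := by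
  obtain ⟨m, P, hP⟩ := mrdp S hS
  have key : ∀ (s : Fin n → ℕ) (w : Fin m → ℕ),
      MvPolynomial.aeval (Sum.elim (fun i => (s i : ℚ)) fun j => (w j : ℚ)) P = 0 ↔
      MvPolynomial.eval (Sum.elim (fun i => (s i : ℤ)) fun j => (w j : ℤ)) P = 0 := fun s w => by
    have h1 := MvPolynomial.comp_aeval_apply (Sum.elim (fun i => (s i : ℤ)) fun j => (w j : ℤ))
      (Algebra.ofId ℤ ℚ) P
    have h2 : (fun x => Algebra.ofId ℤ ℚ (Sum.elim (fun i => (s i : ℤ)) (fun j => (w j : ℤ)) x)) =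
        Sum.elim (fun i => (s i : ℚ)) fun j => (w j : ℚ) := funext fun x => by
      cases x <;> simp
    rw [h2] at h1
    rw [← h1, ← MvPolynomial.coe_aeval_eq_eval]
    exact map_eq_zero_iff _ (algebraMap ℤ ℚ).injective_int
  have h3 : HR R fun a : Fin n → ℚ => ∃ w : Fin m → ℚ, (∀ j, ∃ k : ℕ, w j = k) ∧
      MvPolynomial.aeval (Sum.elim a w) P = 0 := by
    refine HR.exN (((HR.all fun j => HR.isNat hZ (IsP.proj (Sum.inr j))).and
      (HR.eq (IsP.aeval P) IsP.zero)).of_iff fun v => ?_)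
    have e : (Sum.elim (fun i => v (.inl i)) fun j => v (.inr j)) = v := funext fun x => by
      cases x <;> rfl
    rw [e]
  refine ((HR.all fun i => HR.isNat hZ (IsP.proj i)).and h3).of_iff fun a => ⟨?_, ?_⟩
  · rintro ⟨s, hs, rfl⟩
    obtain ⟨w, hw⟩ := (hP s).1 hs
    exact ⟨fun i => ⟨s i, rfl⟩, fun j => w j, fun j => ⟨w j, rfl⟩, (key s w).2 hw⟩
  · rintro ⟨ha, w, hw, h0⟩
    choose s hs using ha
    choose u hu using hw
    obtain rfl : a = fun i => (s i : ℚ) := funext hs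
    obtain rfl : w = fun j => (u j : ℚ) := funext hu
    exact ⟨s, (hP s).2 ⟨u, (key s u).1 h0⟩, rfl⟩

theorem HR.undec (hZ : HR R fun a : Unit → ℚ => ∃ z : ℤ, a () = z) :
    ∃ (m : ℕ) (f : MvPolynomial (Fin 1 ⊕ Fin m) ℤ) (L : List (Fin m × Fin m)),
      ¬ ComputablePred fun k : ℕ =>
        ∃ y : Fin m → ℚ, MvPolynomial.aeval (Sum.elim (fun _ => (k : ℚ)) y) f = 0 ∧
          ∀ p ∈ L, R (y p.1) (y p.2) := by
  obtain ⟨S, hS, hn⟩ := re_not_comp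
  obtain ⟨m, f, L, h⟩ := (HR.re hZ S hS).out
  refine ⟨m, f, L, fun hc => hn (hc.of_eq fun k => ?_)⟩
  refine (h fun _ => (k : ℚ)).symm.trans ⟨?_, fun hk => ⟨_, hk, rfl⟩⟩
  rintro ⟨s, hs, e⟩
  have : s = fun _ => k := by
    funext i
    exact_mod_cast (congrFun e i).symm
  exact this ▸ hs

theorem HR.fin1 (hZ : HR R fun a : Unit → ℚ => ∃ z : ℤ, a () = z) :
    HR R fun a : Fin 1 → ℚ => ∃ z : ℤ, a 0 = z :=
  hZ.comp (φ := fun _ (a : Fin 1 → ℚ) => a 0) fun _ => IsP.proj _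

theorem HR.of_dioph {m : ℕ} {f : MvPolynomial (Fin 2 ⊕ Fin m) ℤ}
    (h : ∀ a : Fin 2 → ℚ, R (a 0) (a 1) ↔
      ∃ y : Fin m → ℚ, MvPolynomial.aeval (Sum.elim a y) f = 0) :
    HR (fun _ _ => True) fun v : Bool → ℚ => R (v true) (v false) := by
  have h1 : HR (fun _ _ => True) fun a : Fin 2 → ℚ => R (a 0) (a 1) :=
    ⟨Fin m, inferInstance, _, [], IsP.aeval f, fun a => by simpa using h a⟩
  exact h1.comp (φ := fun i (v : Bool → ℚ) => v (decide (i = 0))) fun _ => IsP.proj _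

end Vale.Agent.P027
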