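import Vale.Agent.P027.A.Defs
import Vale.Agent.P027.Comp

/-! P027 A/Pts: the points used in the completeness proof (compare P027/Comp.lean, reuse its helper lemmas).
Q = P + (jP + jP) with j large, M = g Q = (2j+1) ga, t = |M| >= 2j+1; choose j with 2j+1 >= B and eta (2j+1)^2 - C > log 2, so den x > 1.
Q' = k Q, g Q' = k M.  `egg_sign`, `egg_ht`, `glob_comb`, `glob_cong`, `At.chord`, `At.lg`; |kM +- ga| <= |k| t + |ga|. -/

namespace Vale.Agent.P027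

theorem Pts_tri {η : ℝ} (hη : 0 < η) (k M ga e : ℤ) (he : e = ga ∨ e = -ga) :
    η * ((k * M + e : ℤ) : ℝ) ^ 2 ≤ η * (|(k : ℝ)| * |(M : ℝ)| + |(ga : ℝ)|) ^ 2 := by
  refine mul_le_mul_of_nonneg_left ?_ hη.le
  rw [← sq_abs]
  refine pow_le_pow_left₀ (abs_nonneg _) ?_ 2
  push_cast
  refine (abs_add_le _ _).trans ?_
  rw [abs_mul]
  rcases he with rfl | rfl
  · exact le_rfl
  · push_cast
    rw [abs_neg]

theorem pts {g : G →+ ℤ} {η C : ℝ} (H : Str g η C) (k : ℤ) (hk : k ≠ 0) (B : ℝ) :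
    ∃ (t : ℝ) (x y x' y' s u v : ℚ), B ≤ t ∧ 0 ≤ t ∧ y ^ 2 = x ^ 3 - 2 * x ∧
      y' ^ 2 = x' ^ 3 - 2 * x' ∧ x ≤ 0 ∧ x ≠ 0 ∧ x' ≠ 0 ∧ x' + 1 ≠ 0 ∧ s * y' * x = x' * y ∧
      u * (x' + 1) = y' - 1 ∧ v * (x' + 1) = y' + 1 ∧ x.den ∣ x'.den ∧
      x.den ∣ ((k : ℚ) - s).num.natAbs ∧ |lg x - η * t ^ 2| ≤ C ∧
      |lg x' - η * (|(k : ℝ)| * t) ^ 2| ≤ C ∧
      lg (u ^ 2 - x' + 1) ≤ η * (|(k : ℝ)| * t + |(g P : ℝ)|) ^ 2 + C ∧
      lg (v ^ 2 - x' + 1) ≤ η * (|(k : ℝ)| * t + |(g P : ℝ)|) ^ 2 + C := by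
  obtain ⟨hη, hP, hC⟩ := H
  obtain ⟨j, hB, -⟩ := comp_big (C := C) hη (g P) k hP (max (C + Real.log (8 : ℕ)) (η * B ^ 2))
  have hB1 := (le_max_left _ _).trans hB
  have hB2 := (le_max_right _ _).trans hB
  set M : ℤ := (2 * j + 1) * g P with hM
  have hM0 : M ≠ 0 := mul_ne_zero (by omega) hP
  set Q : G := P + (j • P + j • P) with hQd
  have hg : g Q = M := by
    rw [hQd, map_add, map_add, map_nsmul, hM, nsmul_eq_mul]
    ring
  obtain ⟨x, y, hQ⟩ := (at_or Q).resolve_left fun h => hM0 (by rw [← hg, h, map_zero])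
  have hx : x ≤ 0 := egg_sign _ hQ
  obtain ⟨-, e2⟩ := egg_ht hQ.eq hx
  have c0 := hC Q
  rw [hQ.lg, hg] at c0
  have c1 := (abs_le.1 c0).1
  have d1 : 8 ≤ Ht x := by
    have h1 : Real.log (8 : ℕ) ≤ Real.log (Ht x) := by
      have : lg x = Real.log (Ht x) := rfl
      linarith
    rw [Real.log_le_log_iff (by positivity) (by exact_mod_cast Ht_pos x)] at h1
    exact_mod_cast h1
  have d2 : 4 ≤ x.den := by omega
  have hg' : g (k • Q) = k * M := by rw [map_zsmul, hg, smul_eq_mul]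
  obtain ⟨x', y', hQ'⟩ := (at_or (k • Q)).resolve_left fun h =>
    mul_ne_zero hk hM0 (by rw [← hg', h, map_zero])
  have hD : Dv x.den Q := fun a b h => by rw [(hQ.uniq h).1]
  have hd : x.den ∣ x'.den := by
    have h1 := glob_comb hQ hD hD k 0
    rw [zero_zsmul, add_zero] at h1
    exact h1 _ _ hQ'
  have hd' := Nat.le_of_dvd x'.den_pos hd
  have n1 : x' ≠ 0 := by
    rintro rfl
    rw [Rat.den_zero] at hd'
    omega
  have n2 : x' ≠ -1 := by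
    rintro rfl
    rw [Rat.neg_den, Rat.den_one] at hd'
    omega
  have n3 : x ≠ 0 := by
    rintro rfl
    rw [Rat.den_zero] at d2
    omega
  have n4 : y' ≠ 0 := by
    rintro rfl
    exact n1 hQ'.y0
  have n5 : x' + 1 ≠ 0 := fun h => n2 (by linarith)
  have hs : x' * y / (y' * x) * y' * x = x' * y := by field_simp
  have c2 := hC (k • Q)
  rw [hQ'.lg, hg'] at c2
  refine ⟨|(M : ℝ)|, x, y, x', y', x' * y / (y' * x), (y' - 1) / (x' + 1), (y' + 1) / (x' + 1),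
    ?_, abs_nonneg _, hQ.eq, hQ'.eq, hx, n3, n1, n5, hs, div_mul_cancel₀ _ n5,
    div_mul_cancel₀ _ n5, hd, glob_cong hQ k hQ' hs, ?_, ?_, ?_, ?_⟩
  · exact (le_abs_self B).trans (sq_le_sq.1 (le_of_mul_le_mul_left hB2 hη))
  · rwa [sq_abs]
  · rw [← abs_mul, sq_abs]
    exact_mod_cast c2
  · obtain ⟨z, hz⟩ := hQ'.chord (l := (y' - 1) / (x' + 1)) at_P n2 (by
      rw [sub_neg_eq_add, div_mul_cancel₀ _ n5])
    have c3 := (abs_le.1 (hC (k • Q + P))).2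
    rw [hz.lg, map_add, hg', sub_neg_eq_add] at c3
    have c4 := Pts_tri hη k M (g P) _ (Or.inl rfl)
    linarith
  · obtain ⟨z, hz⟩ := hQ'.chord (l := (y' + 1) / (x' + 1)) at_P.neg n2 (by
      rw [sub_neg_eq_add, div_mul_cancel₀ _ n5, sub_neg_eq_add])
    have c3 := (abs_le.1 (hC (k • Q + -P))).2
    rw [hz.lg, map_add, map_neg, hg', sub_neg_eq_add] at c3
    have c4 := Pts_tri hη k M (g P) _ (Or.inr rfl)
    linarith

end Vale.Agent.P027
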